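import Mathlib

/-!
# P202: the multiplicity symbol

`emult k z M` is the Auslander-Buchsbaum recursive Euler characteristic
`e(z₁,…,z_r; M)`; it is meaningful when `Good k z M` holds.
-/

noncomputable section

namespace Vale.Agent.P202

universe u v w

open LinearMap

section defs

variable (k : Type*) [Field k] {A : Type*} [CommRing A] [Algebra k A]

/-- `M` is finite and `M / z M` is finite-dimensional, in a form stable under subquotients. -/
structure Good (z : List A) (M : Type*) [AddCommGroup M] [Module A M] : Prop where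
  finite : Module.Finite A M
  quot : Module.Finite k (A ⧸ (Module.annihilator A M ⊔ Ideal.ofList z))

/-- The multiplicity symbol, by recursion on the list. -/
def emult : List A → ∀ (M : Type v) [AddCommGroup M] [Module A M], ℤ
  | [], M, _, _ => (Module.finrank k (RestrictScalars k A M) : ℤ)
  | z :: zs, M, _, _ =>
      emult zs (M ⧸ range (lsmul A M z)) - emult zs (ker (lsmul A M z))

theorem emult_cons (z : A) (zs : List A) (M : Type v) [AddCommGroup M] [Module A M] :
    emult k (z :: zs) M =
      emult k zs (M ⧸ range (lsmul A M z)) - emult k zs (ker (lsmul A M z)) := rfl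

end defs

section semilinear

variable {k k' : Type*} [Field k] [Field k'] {A B : Type*} [CommRing A] [CommRing B]
  [Algebra k A] [Algebra k' B]

/-- Invariance under semilinear bijections. -/
theorem emult_semilinear (σ : k ≃+* k') (φ : A →+* B)
    (hφ : ∀ c, φ (algebraMap k A c) = algebraMap k' B (σ c)) (z : List A) :
    ∀ (M : Type v) [AddCommGroup M] [Module A M] (N : Type v) [AddCommGroup N] [Module B N]
      (e : M ≃+ N), (∀ (a : A) (m : M), e (a • m) = φ a • e m) →
      emult k z M = emult k' (z.map φ) N := by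
  induction z with
  | nil =>
    intro M _ _ N _ _ e he
    let e' : RestrictScalars k A M ≃+ RestrictScalars k' B N :=
      ((RestrictScalars.addEquiv k A M).trans e).trans (RestrictScalars.addEquiv k' B N).symm
    have := rank_eq_of_equiv_equiv (σ : k → k') e' σ.bijective (fun c m => by
      change e (algebraMap k A c • (RestrictScalars.addEquiv k A M m)) =
        algebraMap k' B (σ c) • e _
      rw [he, hφ]
      rfl)
    simp [emult, Module.finrank, this]
  | cons z zs ih =>
    intro M _ _ N _ _ e he
    rw [List.map_cons, emult_cons, emult_cons]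
    have hr : AddSubgroup.map e.toAddMonoidHom (range (lsmul A M z)).toAddSubgroup =
        (range (lsmul B N (φ z))).toAddSubgroup := by
      ext n
      simp only [AddSubgroup.mem_map, Submodule.mem_toAddSubgroup, LinearMap.mem_range,
        lsmul_apply]
      constructor
      · rintro ⟨_, ⟨m, rfl⟩, rfl⟩
        exact ⟨e m, (he z m).symm⟩
      · rintro ⟨n', rfl⟩
        exact ⟨z • e.symm n', ⟨e.symm n', rfl⟩, by simp [he]⟩
    let eq : (M ⧸ range (lsmul A M z)) ≃+ (N ⧸ range (lsmul B N (φ z))) :=
      QuotientAddGroup.congr _ _ e hr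
    let ek : ker (lsmul A M z) ≃+ ker (lsmul B N (φ z)) :=
      { toFun := fun m => ⟨e m, by
          have := m.2
          simp only [LinearMap.mem_ker, lsmul_apply] at this ⊢
          rw [← he, this, map_zero]⟩
        invFun := fun n => ⟨e.symm n, by
          have := n.2
          simp only [LinearMap.mem_ker, lsmul_apply] at this ⊢
          apply e.injective
          rw [he, e.apply_symm_apply, this, map_zero]⟩
        left_inv := fun m => by ext; simp
        right_inv := fun n => by ext; simp
        map_add' := fun a b => by ext; simp }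
    rw [ih _ _ eq, ih _ _ ek]
    · intro a m
      ext
      exact he a m
    · intro a m
      obtain ⟨m, rfl⟩ := Submodule.Quotient.mk_surjective _ m
      change eq (Submodule.Quotient.mk (a • m)) = φ a • eq (Submodule.Quotient.mk m)
      change Submodule.Quotient.mk (e (a • m)) = φ a • Submodule.Quotient.mk (e m)
      rw [he, Submodule.Quotient.mk_smul]

end semilinear

section additive

variable {k : Type*} [Field k] {A : Type*} [CommRing A] [Algebra k A]

theorem emult_congr {z : List A} {M N : Type v} [AddCommGroup M] [Module A M]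
    [AddCommGroup N] [Module A N] (e : M ≃ₗ[A] N) : emult k z M = emult k z N := by
  simpa using emult_semilinear (RingEquiv.refl k) (RingHom.id A) (fun c => rfl) z M N
    e.toAddEquiv (fun a m => e.map_smul a m)

/-- A finite sum of copies of a finite-dimensional cyclic module. -/
theorem finite_of_annihilator {I : Ideal A} [Module.Finite k (A ⧸ I)] {M : Type*}
    [AddCommGroup M] [Module A M] [Module k M] [IsScalarTower k A M] (S : Submodule A M)
    (hS : S.FG) (h : ∀ a ∈ I, ∀ m ∈ S, a • m = 0) :
    Module.Finite k (S.restrictScalars k) := by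
  classical
  obtain ⟨n, g, hg⟩ := Submodule.fg_iff_exists_fin_generating_family.1 hS
  have hgm : ∀ i, g i ∈ S := fun i => hg ▸ Submodule.subset_span ⟨i, rfl⟩
  let T : (Fin n → A ⧸ I) →ₗ[A] M := ∑ i, (Submodule.liftQ I (toSpanSingleton A M (g i))
    (fun a ha => h a ha _ (hgm i))).comp (LinearMap.proj i)
  have hT : S.restrictScalars k = LinearMap.range (T.restrictScalars k) := by
    ext m
    simp only [Submodule.restrictScalars_mem, LinearMap.mem_range, restrictScalars_apply]
    constructor
    · intro hm
      rw [← hg, Submodule.mem_span_range_iff_exists_fun] at hm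
      obtain ⟨c, rfl⟩ := hm
      refine ⟨fun i => Submodule.Quotient.mk (c i), ?_⟩
      simp only [T, LinearMap.coe_sum, Finset.sum_apply, comp_apply, proj_apply,
        toSpanSingleton_apply]
      exact Finset.sum_congr rfl fun i _ => rfl
    · rintro ⟨c, rfl⟩
      simp only [T, LinearMap.coe_sum, Finset.sum_apply, comp_apply, proj_apply]
      refine Submodule.sum_mem _ fun i _ => ?_
      obtain ⟨a, ha⟩ := Submodule.Quotient.mk_surjective I (c i)
      rw [← ha]
      exact S.smul_mem a (hgm i)
  rw [hT]
  infer_instance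

theorem finite_quotient_mul [IsNoetherianRing A] (I J : Ideal A) [Module.Finite k (A ⧸ I)]
    [Module.Finite k (A ⧸ J)] : Module.Finite k (A ⧸ I * J) := by
  let S : Submodule A (A ⧸ I * J) := Submodule.map (I * J).mkQ I
  have h1 : Module.Finite k (S.restrictScalars k) := by
    refine finite_of_annihilator (I := J) S ((IsNoetherian.noetherian I).map _) ?_
    rintro a ha _ ⟨b, hb, rfl⟩
    rw [← map_smul, Submodule.mkQ_apply, Submodule.Quotient.mk_eq_zero, smul_eq_mul, mul_comm a b]
    exact Ideal.mul_mem_mul hb ha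
  have h2 : Module.Finite k ((A ⧸ I * J) ⧸ S.restrictScalars k) := by
    let e : ((A ⧸ I * J) ⧸ S) ≃ₗ[A] A ⧸ I :=
      Submodule.quotientQuotientEquivQuotient (I * J) I Ideal.mul_le_left
    exact Module.Finite.equiv ((e.restrictScalars k).symm.trans
      (Submodule.Quotient.restrictScalarsEquiv k S).symm)
  exact Module.Finite.of_submodule_quotient (S.restrictScalars k)

theorem finite_quot_of_le {I J : Ideal A} (h : I ≤ J) [Module.Finite k (A ⧸ I)] :
    Module.Finite k (A ⧸ J) :=
  Module.Finite.of_surjective (Ideal.Quotient.factorₐ k h).toLinearMap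
    (Ideal.Quotient.factor_surjective h)

theorem sup_mul_sup_le {I J K : Ideal A} (L : Ideal A) (h : I * J ≤ K) :
    (I ⊔ L) * (J ⊔ L) ≤ K ⊔ L := by
  refine Ideal.mul_le.2 fun a ha b hb => ?_
  obtain ⟨a₁, ha₁, a₂, ha₂, rfl⟩ := Submodule.mem_sup.1 ha
  obtain ⟨b₁, hb₁, b₂, hb₂, rfl⟩ := Submodule.mem_sup.1 hb
  exact Submodule.mem_sup.2 ⟨a₁ * b₁, h (Ideal.mul_mem_mul ha₁ hb₁),
    a₁ * b₂ + a₂ * (b₁ + b₂), Ideal.add_mem _ (L.mul_mem_left _ hb₂) (L.mul_mem_right _ ha₂),
    by ring⟩

theorem annihilator_mul_le {M N P : Type*} [AddCommGroup M] [Module A M] [AddCommGroup N]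
    [Module A N] [AddCommGroup P] [Module A P] {f : N →ₗ[A] M} {g : M →ₗ[A] P}
    (hfg : Function.Exact f g) :
    Module.annihilator A N * Module.annihilator A P ≤ Module.annihilator A M := by
  refine Ideal.mul_le.2 fun a ha b hb => ?_
  rw [Module.mem_annihilator] at ha hb ⊢
  intro m
  have h0 : g (b • m) = 0 := by rw [map_smul, hb]
  obtain ⟨n, hn⟩ := (hfg _).1 h0
  rw [mul_smul, ← hn, ← map_smul, ha, map_zero]

namespace Good

variable {z : List A} {M : Type*} [AddCommGroup M] [Module A M]

theorem mono (h : Good k z M) {N : Type*} [AddCommGroup N] [Module A N] [Module.Finite A N]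
    (hle : Module.annihilator A M ≤ Module.annihilator A N) : Good k z N := by
  refine ⟨inferInstance, ?_⟩
  have := h.quot
  exact finite_quot_of_le (sup_le_sup hle (le_refl (Ideal.ofList z)))

theorem of_injective [IsNoetherianRing A] (h : Good k z M) {N : Type*} [AddCommGroup N]
    [Module A N] (f : N →ₗ[A] M) (hf : Function.Injective f) : Good k z N := by
  have := h.finite
  have : Module.Finite A N := Module.Finite.of_injective f hf
  exact h.mono (f.annihilator_le_of_injective hf)

theorem of_surjective (h : Good k z M) {N : Type*} [AddCommGroup N]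
    [Module A N] (f : M →ₗ[A] N) (hf : Function.Surjective f) : Good k z N := by
  have := h.finite
  have : Module.Finite A N := Module.Finite.of_surjective f hf
  exact h.mono (f.annihilator_le_of_surjective hf)

theorem sub [IsNoetherianRing A] (h : Good k z M) (S : Submodule A M) : Good k z S :=
  h.of_injective S.subtype S.injective_subtype

theorem quotient (h : Good k z M) (S : Submodule A M) : Good k z (M ⧸ S) :=
  h.of_surjective S.mkQ S.mkQ_surjective

theorem of_exact [IsNoetherianRing A] {N P : Type*} [AddCommGroup N] [Module A N]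
    [AddCommGroup P] [Module A P] {f : N →ₗ[A] M} {g : M →ₗ[A] P} (hfg : Function.Exact f g)
    (hN : Good k z N) (hP : Good k z P) : Good k z M := by
  have := hN.finite
  have := hP.finite
  have : IsNoetherian A P := isNoetherian_of_isNoetherianRing_of_finite A P
  have hfg' : Function.Exact f g.rangeRestrict := by
    rw [LinearMap.exact_iff, LinearMap.ker_rangeRestrict, ← LinearMap.exact_iff]
    exact hfg
  have hfin : Module.Finite A M := Module.Finite.of_exact hfg' g.surjective_rangeRestrict
  refine ⟨hfin, ?_⟩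
  have := hN.quot
  have := hP.quot
  have := finite_quotient_mul (k := k) (Module.annihilator A N ⊔ Ideal.ofList z)
    (Module.annihilator A P ⊔ Ideal.ofList z)
  refine finite_quot_of_le (I := (Module.annihilator A N ⊔ Ideal.ofList z) *
    (Module.annihilator A P ⊔ Ideal.ofList z)) ?_
  exact sup_mul_sup_le _ (annihilator_mul_le hfg)

theorem tail_of_smul_zero [IsNoetherianRing A] {x : A} {zs : List A} (h : Good k (x :: zs) M)
    {N : Type*} [AddCommGroup N] [Module A N] [Module.Finite A N]
    (hle : Module.annihilator A M ≤ Module.annihilator A N) (hx : ∀ n : N, x • n = 0) :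
    Good k zs N := by
  refine ⟨inferInstance, ?_⟩
  have := h.quot
  refine finite_quot_of_le (I := Module.annihilator A M ⊔ Ideal.ofList (x :: zs)) ?_
  rw [Ideal.ofList_cons]
  refine sup_le (hle.trans le_sup_left) (sup_le ?_ le_sup_right)
  rw [Ideal.span_singleton_le_iff_mem]
  exact Ideal.mem_sup_left (Module.mem_annihilator.2 hx)

theorem cons_quot [IsNoetherianRing A] {x : A} {zs : List A} (h : Good k (x :: zs) M) :
    Good k zs (M ⧸ range (lsmul A M x)) := by
  have := h.finite
  refine h.tail_of_smul_zero ((range _).mkQ.annihilator_le_of_surjective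
    (Submodule.mkQ_surjective _)) fun n => ?_
  obtain ⟨n, rfl⟩ := Submodule.Quotient.mk_surjective _ n
  rw [← Submodule.Quotient.mk_smul, Submodule.Quotient.mk_eq_zero]
  exact ⟨n, rfl⟩

theorem cons_ker [IsNoetherianRing A] {x : A} {zs : List A} (h : Good k (x :: zs) M) :
    Good k zs (ker (lsmul A M x)) := by
  have := h.finite
  refine h.tail_of_smul_zero ((ker _).subtype.annihilator_le_of_injective
    (Submodule.injective_subtype _)) fun n => Subtype.ext n.2

theorem finiteDimensional {M : Type*} [AddCommGroup M] [Module A M] [Module k M]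
    [IsScalarTower k A M] (h : Good k ([] : List A) M) : Module.Finite k M := by
  have := h.finite
  have hq := h.quot
  rw [Ideal.ofList_nil, sup_bot_eq] at hq
  have : Module.Finite k ((⊤ : Submodule A M).restrictScalars k) :=
    finite_of_annihilator (I := Module.annihilator A M) ⊤ Module.Finite.fg_top
      fun a ha m _ => Module.mem_annihilator.1 ha m
  exact Module.Finite.equiv ((LinearEquiv.ofEq _ _ (Submodule.restrictScalars_top k A M)).trans
    Submodule.topEquiv)

end Good

variable (k) in
theorem emult_subsingleton : ∀ (z : List A) (M : Type v) [AddCommGroup M] [Module A M]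
    [Subsingleton M], emult k z M = 0 := by
  intro z
  induction z with
  | nil =>
    intro M _ _ hM
    have : Subsingleton (RestrictScalars k A M) := hM
    simp [emult, Module.finrank_zero_of_subsingleton]
  | cons x zs ih =>
    intro M _ _ _
    rw [emult_cons, ih, ih, sub_zero]

/-- An exact six-term sequence, under additivity on short exact sequences. -/
theorem six_term [IsNoetherianRing A] {zs : List A}
    (add : ∀ (M₁ M₂ M₃ : Type v) [AddCommGroup M₁] [Module A M₁] [AddCommGroup M₂] [Module A M₂]
      [AddCommGroup M₃] [Module A M₃] (f : M₁ →ₗ[A] M₂) (g : M₂ →ₗ[A] M₃),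
      Function.Injective f → Function.Surjective g → Function.Exact f g → Good k zs M₂ →
      emult k zs M₂ = emult k zs M₁ + emult k zs M₃)
    {K₁ K₂ K₃ Q₁ Q₂ Q₃ : Type v}
    [AddCommGroup K₁] [Module A K₁] [AddCommGroup K₂] [Module A K₂] [AddCommGroup K₃] [Module A K₃]
    [AddCommGroup Q₁] [Module A Q₁] [AddCommGroup Q₂] [Module A Q₂] [AddCommGroup Q₃] [Module A Q₃]
    {a : K₁ →ₗ[A] K₂} {b : K₂ →ₗ[A] K₃} {δ : K₃ →ₗ[A] Q₁} {c : Q₁ →ₗ[A] Q₂} {d : Q₂ →ₗ[A] Q₃}
    (ha : Function.Injective a) (hd : Function.Surjective d) (h1 : Function.Exact a b)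
    (h2 : Function.Exact b δ) (h3 : Function.Exact δ c) (h4 : Function.Exact c d)
    (g2 : Good k zs K₂) (g3 : Good k zs K₃) (g4 : Good k zs Q₁) (g5 : Good k zs Q₂) :
    emult k zs Q₂ - emult k zs K₂ =
      (emult k zs Q₁ - emult k zs K₁) + (emult k zs Q₃ - emult k zs K₃) := by
  have mid : ∀ {P Q R : Type v} [AddCommGroup P] [Module A P] [AddCommGroup Q] [Module A Q]
      [AddCommGroup R] [Module A R] {u : P →ₗ[A] Q} {w : Q →ₗ[A] R}, Function.Exact u w →
      Good k zs Q → emult k zs Q = emult k zs (range u) + emult k zs (range w) := by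
    intro P Q R _ _ _ _ _ _ u w huw hQ
    refine add _ _ _ (range u).subtype w.rangeRestrict (Submodule.injective_subtype _)
      w.surjective_rangeRestrict ?_ hQ
    rw [LinearMap.exact_iff, Submodule.range_subtype, LinearMap.ker_rangeRestrict]
    exact (LinearMap.exact_iff.1 huw)
  have e1 := mid h1 g2
  have e2 := mid h2 g3
  have e3 := mid h3 g4
  have e4 := mid h4 g5
  rw [← emult_congr (LinearEquiv.ofInjective a ha)] at e1
  rw [emult_congr ((LinearEquiv.ofEq _ _ (LinearMap.range_eq_top.2 hd)).trans
    Submodule.topEquiv)] at e4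
  linarith

/-- Additivity on short exact sequences. -/
theorem emult_exact [IsNoetherianRing A] : ∀ (z : List A) (M₁ M₂ M₃ : Type v) [AddCommGroup M₁]
    [Module A M₁] [AddCommGroup M₂] [Module A M₂] [AddCommGroup M₃] [Module A M₃]
    (f : M₁ →ₗ[A] M₂) (g : M₂ →ₗ[A] M₃), Function.Injective f → Function.Surjective g →
    Function.Exact f g → Good k z M₂ → emult k z M₂ = emult k z M₁ + emult k z M₃ := by
  intro z
  induction z with
  | nil =>
    intro M₁ M₂ M₃ _ _ _ _ _ _ f g hf hg hfg h2
    letI := Module.compHom M₁ (algebraMap k A)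
    letI := Module.compHom M₂ (algebraMap k A)
    letI := Module.compHom M₃ (algebraMap k A)
    haveI : IsScalarTower k A M₁ := IsScalarTower.of_algebraMap_smul fun _ _ => rfl
    haveI : IsScalarTower k A M₂ := IsScalarTower.of_algebraMap_smul fun _ _ => rfl
    haveI : IsScalarTower k A M₃ := IsScalarTower.of_algebraMap_smul fun _ _ => rfl
    have := h2.finiteDimensional
    have hker : ker g = range f := LinearMap.exact_iff.1 hfg
    have h := LinearMap.finrank_range_add_finrank_ker (g.restrictScalars k)
    have r3 : LinearMap.range (g.restrictScalars k) = ⊤ :=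
      LinearMap.range_eq_top.2 hg
    have r1 : LinearMap.ker (g.restrictScalars k) = LinearMap.range (f.restrictScalars k) := by
      ext m
      exact hfg m
    rw [r3, r1, finrank_top, LinearMap.finrank_range_of_inj (f := f.restrictScalars k) hf] at h
    change (Module.finrank k M₂ : ℤ) = Module.finrank k M₁ + Module.finrank k M₃
    omega
  | cons x zs ih =>
    intro M₁ M₂ M₃ _ _ _ _ _ _ f g hf hg hfg h2
    rw [emult_cons, emult_cons, emult_cons]
    have h1 := h2.of_injective f hf
    have h3 := h2.of_surjective g hg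
    set i₁ := lsmul A M₁ x
    set i₂ := lsmul A M₂ x
    set i₃ := lsmul A M₃ x
    have c1 : f.comp i₁ = i₂.comp f := by ext m; simp [i₁, i₂]
    have c2 : g.comp i₂ = i₃.comp g := by ext m; simp [i₂, i₃]
    have hk1 : ∀ m ∈ ker i₁, f m ∈ ker i₂ := fun m hm => by
      simp only [i₁, i₂, LinearMap.mem_ker, lsmul_apply] at hm ⊢
      rw [← map_smul, hm, map_zero]
    have hk2 : ∀ m ∈ ker i₂, g m ∈ ker i₃ := fun m hm => by
      simp only [i₂, i₃, LinearMap.mem_ker, lsmul_apply] at hm ⊢
      rw [← map_smul, hm, map_zero]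
    have hq1 : range i₁ ≤ (range i₂).comap f := by
      rintro _ ⟨m, rfl⟩
      exact ⟨f m, by simp [i₁, i₂]⟩
    have hq2 : range i₂ ≤ (range i₃).comap g := by
      rintro _ ⟨m, rfl⟩
      exact ⟨g m, by simp [i₂, i₃]⟩
    let a := f.restrict hk1
    let b := g.restrict hk2
    let c := (range i₁).mapQ (range i₂) f hq1
    let d := (range i₂).mapQ (range i₃) g hq2
    have hk : ∀ {P : Type v} [AddCommGroup P] [Module A P] (i : P →ₗ[A] P),
        Function.Exact (ker i).subtype i := fun i => by
      rw [LinearMap.exact_iff, Submodule.range_subtype]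
    have hc : ∀ {P : Type v} [AddCommGroup P] [Module A P] (i : P →ₗ[A] P),
        Function.Exact i (range i).mkQ := fun i => by
      rw [LinearMap.exact_iff, Submodule.ker_mkQ]
    let δ := SnakeLemma.δ' i₁ i₂ i₃ f g hfg f g hfg c1 c2 (ker i₃).subtype (hk i₃)
      (range i₁).mkQ (hc i₁) hg hf
    refine six_term ih (a := a) (b := b) (δ := δ) (c := c) (d := d) ?_ ?_ ?_ ?_ ?_ ?_
      h2.cons_ker h3.cons_ker h1.cons_quot h2.cons_quot
    · intro m m' hmm
      exact Subtype.ext (hf (congrArg Subtype.val hmm))
    · intro q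
      obtain ⟨m, rfl⟩ := Submodule.Quotient.mk_surjective _ q
      obtain ⟨m', rfl⟩ := hg m
      exact ⟨Submodule.Quotient.mk m', rfl⟩
    · intro m
      constructor
      · intro hm
        have hm' : g (m : M₂) = 0 := congrArg Subtype.val hm
        obtain ⟨n, hn⟩ := (hfg _).1 hm'
        refine ⟨⟨n, ?_⟩, Subtype.ext hn⟩
        have := m.2
        simp only [i₁, i₂, LinearMap.mem_ker, lsmul_apply] at this ⊢
        apply hf
        rw [map_smul, hn, this, map_zero]
      · rintro ⟨n, rfl⟩
        exact Subtype.ext (hfg.apply_apply_eq_zero n)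
    · exact SnakeLemma.exact_δ'_right i₁ i₂ i₃ f g hfg f g hfg c1 c2 (ker i₂).subtype (hk i₂)
        (ker i₃).subtype (hk i₃) (range i₁).mkQ (hc i₁) hg hf b rfl
        (Submodule.injective_subtype _)
    · exact SnakeLemma.exact_δ'_left i₁ i₂ i₃ f g hfg f g hfg c1 c2 (ker i₃).subtype (hk i₃)
        (range i₁).mkQ (hc i₁) (range i₂).mkQ (hc i₂) hg hf c rfl (Submodule.mkQ_surjective _)
    · intro q
      obtain ⟨m, rfl⟩ := Submodule.Quotient.mk_surjective _ q
      constructor
      · intro hm
        obtain ⟨n, hn⟩ := (Submodule.Quotient.mk_eq_zero _).1 hm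
        obtain ⟨n', rfl⟩ := hg n
        have : g (m - i₂ n') = 0 := by
          rw [map_sub, ← hn]; simp [i₂, i₃]
        obtain ⟨p, hp⟩ := (hfg _).1 this
        refine ⟨Submodule.Quotient.mk p, ?_⟩
        change Submodule.Quotient.mk (f p) = _
        rw [Submodule.Quotient.eq, hp, sub_sub_cancel_left]
        exact Submodule.neg_mem _ ⟨n', rfl⟩
      · rintro ⟨p, hp⟩
        obtain ⟨p, rfl⟩ := Submodule.Quotient.mk_surjective _ p
        rw [← hp]
        change Submodule.Quotient.mk (g (f p)) = 0
        rw [hfg.apply_apply_eq_zero, Submodule.Quotient.mk_zero]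

/-- Multiplicativity in the first entry. -/
theorem emult_cons_mul [IsNoetherianRing A] {M : Type v} [AddCommGroup M] [Module A M] (x y : A)
    (zs : List A) (hx : Good k (x :: zs) M) (hy : Good k (y :: zs) M)
    (hxy : Good k (x * y :: zs) M) :
    emult k (x * y :: zs) M = emult k (x :: zs) M + emult k (y :: zs) M := by
  rw [emult_cons, emult_cons, emult_cons]
  set ix := lsmul A M x
  set iy := lsmul A M y
  set ixy := lsmul A M (x * y)
  have hk1 : ∀ m ∈ ker ix, (LinearMap.id : M →ₗ[A] M) m ∈ ker ixy := fun m hm => by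
    simp only [ix, ixy, LinearMap.mem_ker, lsmul_apply, LinearMap.id_apply] at hm ⊢
    rw [mul_comm, mul_smul, hm, smul_zero]
  have hk2 : ∀ m ∈ ker ixy, ix m ∈ ker iy := fun m hm => by
    simp only [ix, iy, ixy, LinearMap.mem_ker, lsmul_apply] at hm ⊢
    rw [← mul_smul, mul_comm, hm]
  have hq1 : range ix ≤ (range ixy).comap iy := by
    rintro _ ⟨m, rfl⟩
    exact ⟨m, by simp [ix, iy, ixy, mul_smul, smul_comm y x m]⟩
  have hq2 : range ixy ≤ (range iy).comap (LinearMap.id : M →ₗ[A] M) := by
    rintro _ ⟨m, rfl⟩
    exact ⟨x • m, by simp [iy, ixy, mul_smul, smul_comm y x m]⟩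
  refine six_term (emult_exact zs) (a := (LinearMap.id : M →ₗ[A] M).restrict hk1)
    (b := ix.restrict hk2) (δ := (range ix).mkQ.comp (ker iy).subtype)
    (c := (range ix).mapQ (range ixy) iy hq1)
    (d := (range ixy).mapQ (range iy) LinearMap.id hq2) ?_ ?_ ?_ ?_ ?_ ?_
    hxy.cons_ker hy.cons_ker hx.cons_quot hxy.cons_quot
  · intro m m' h
    exact Subtype.ext (congrArg Subtype.val h :)
  · intro q
    obtain ⟨m, rfl⟩ := Submodule.Quotient.mk_surjective _ q
    exact ⟨Submodule.Quotient.mk m, rfl⟩
  · intro m
    constructor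
    · intro hm
      exact ⟨⟨m, congrArg Subtype.val hm⟩, rfl⟩
    · rintro ⟨n, rfl⟩
      exact Subtype.ext n.2
  · intro m
    constructor
    · intro hm
      obtain ⟨n, hn⟩ := (Submodule.Quotient.mk_eq_zero _).1 hm
      refine ⟨⟨n, ?_⟩, Subtype.ext hn⟩
      have := m.2
      simp only [iy, ixy, LinearMap.mem_ker, lsmul_apply] at this ⊢
      rw [mul_comm, mul_smul, show x • n = (m : M) from hn, this]
    · rintro ⟨n, rfl⟩
      exact (Submodule.Quotient.mk_eq_zero _).2 ⟨_, rfl⟩
  · intro q
    obtain ⟨m, rfl⟩ := Submodule.Quotient.mk_surjective _ q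
    constructor
    · intro hm
      obtain ⟨n, hn⟩ := (Submodule.Quotient.mk_eq_zero _).1 hm
      refine ⟨⟨m - x • n, ?_⟩, ?_⟩
      · simp only [iy, ixy, LinearMap.mem_ker, lsmul_apply] at hn ⊢
        rw [smul_sub, ← hn, mul_comm, mul_smul, sub_self]
      · change Submodule.Quotient.mk (m - x • n) = _
        rw [Submodule.Quotient.eq, sub_sub_cancel_left]
        exact Submodule.neg_mem _ ⟨n, rfl⟩
    · rintro ⟨n, hn⟩
      rw [← hn]
      change Submodule.Quotient.mk (y • (n : M)) = 0
      rw [show y • (n : M) = 0 from n.2, Submodule.Quotient.mk_zero]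
  · intro q
    obtain ⟨m, rfl⟩ := Submodule.Quotient.mk_surjective _ q
    constructor
    · intro hm
      obtain ⟨n, hn⟩ := (Submodule.Quotient.mk_eq_zero _).1 hm
      exact ⟨Submodule.Quotient.mk n, congrArg Submodule.Quotient.mk hn⟩
    · rintro ⟨p, hp⟩
      obtain ⟨p, rfl⟩ := Submodule.Quotient.mk_surjective _ p
      rw [← hp]
      exact (Submodule.Quotient.mk_eq_zero _).2 ⟨p, rfl⟩

theorem emult_cons_pow [IsNoetherianRing A] (x : A) (zs : List A) (q : ℕ) :
    ∀ (M : Type v) [AddCommGroup M] [Module A M], Good k (x ^ q :: zs) M → 1 ≤ q →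
      emult k (x ^ q :: zs) M = q * emult k (x :: zs) M := by
  induction q with
  | zero => intro M _ _ _ h; omega
  | succ q ih =>
    intro M _ _ h _
    rcases Nat.eq_zero_or_pos q with rfl | hq
    · simp
    have down : ∀ y : A, y ∣ x ^ (q + 1) → Good k (y :: zs) M := by
      intro y hy
      refine ⟨h.finite, ?_⟩
      have := h.quot
      refine finite_quot_of_le (I := Module.annihilator A M ⊔ Ideal.ofList (x ^ (q + 1) :: zs)) ?_
      rw [Ideal.ofList_cons, Ideal.ofList_cons]
      exact sup_le_sup le_rfl
        (sup_le_sup (Ideal.span_singleton_le_span_singleton.2 hy) le_rfl)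
    have h1 : Good k (x :: zs) M := down x (dvd_pow_self x (by omega))
    have hq' : Good k (x ^ q :: zs) M := down _ (pow_dvd_pow x (by omega))
    rw [show x ^ (q + 1) = x ^ q * x from pow_succ x q,
      emult_cons_mul (x ^ q) x zs hq' h1 (pow_succ x q ▸ h), ih M hq' hq]
    push_cast
    ring

/-- Raising every entry to the `q`-th power. -/
theorem emult_map_pow [IsNoetherianRing A] (q : ℕ) (hq : 1 ≤ q) : ∀ (z : List A)
    (M : Type v) [AddCommGroup M] [Module A M], Good k (z.map (· ^ q)) M →
    emult k (z.map (· ^ q)) M = (q : ℤ) ^ z.length * emult k z M := by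
  intro z
  induction z with
  | nil => intro M _ _ _; simp
  | cons x zs ih =>
    intro M _ _ h
    rw [List.map_cons] at h ⊢
    rw [emult_cons, ih _ h.cons_quot, ih _ h.cons_ker, ← mul_sub, ← emult_cons,
      emult_cons_pow x zs q M ?_ hq, List.length_cons]
    · ring
    refine ⟨h.finite, ?_⟩
    have := h.quot
    refine finite_quot_of_le
      (I := Module.annihilator A M ⊔ Ideal.ofList (x ^ q :: zs.map (· ^ q))) ?_
    rw [Ideal.ofList_cons, Ideal.ofList_cons]
    refine sup_le_sup le_rfl (sup_le_sup le_rfl (Ideal.span_le.2 ?_))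
    intro y hy
    simp only [List.mem_map, Set.mem_setOf_eq] at hy ⊢
    obtain ⟨z, hz, rfl⟩ := hy
    exact Ideal.pow_mem_of_mem (Ideal.ofList zs) (Ideal.subset_span hz) q (by omega)

end additive

end Vale.Agent.P202
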