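import Vale.Agent.P202.Koszul.Dim

/-!
# P202: scaling of the multiplicity symbol under Frobenius, after a flat finite extension

For a module-finite flat `R`-algebra `S` and `y` in `S`, the functional
`M ↦ emult k y (S ⊗[R] M)` gets multiplied by `q ^ d` under Frobenius pullback.
-/

noncomputable section

namespace Vale.Agent.P202

universe u

open TensorProduct

/-- A module with scalars restricted along an endomorphism of the ring. -/
def Pull {R : Type*} [CommRing R] (_F : R →+* R) (M : Type u) : Type u := M

namespace Pull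

variable {R : Type u} [CommRing R] (F : R →+* R) {M N : Type u}

instance [AddCommGroup M] : AddCommGroup (Pull F M) := ‹AddCommGroup M›

instance [AddCommGroup M] [Module R M] : Module R (Pull F M) :=
  Module.compHom M F

variable [AddCommGroup M] [Module R M] [AddCommGroup N] [Module R N]

/-- The identity map to the synonym. -/
def of : M ≃+ Pull F M := AddEquiv.refl M

theorem smul_of (a : R) (m : M) : a • of F m = of F (F a • m) := rfl

/-- Pullback of a linear map. -/
def map (f : M →ₗ[R] N) : Pull F M →ₗ[R] Pull F N where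
  toFun m := of F (f ((of F).symm m))
  map_add' m m' := f.map_add _ _
  map_smul' a m := f.map_smul (F a) _

/-- Pullback of a linear equivalence. -/
def congr (f : M ≃ₗ[R] N) : Pull F M ≃ₗ[R] Pull F N :=
  { map F f.toLinearMap with
    invFun := fun n => of F (f.symm ((of F).symm n))
    left_inv := fun m => f.symm_apply_apply _
    right_inv := fun n => f.apply_symm_apply _ }

theorem finite (hF : F.Finite) [Module.Finite R M] : Module.Finite R (Pull F M) := by
  have h1 : Module.Finite R (Pull F R) := hF
  obtain ⟨n, f, hf⟩ := Module.Finite.exists_fin' R M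
  let g : (Fin n → Pull F R) →ₗ[R] Pull F (Fin n → R) :=
    { toFun := fun v => v
      map_add' := fun v w => rfl
      map_smul' := fun a v => rfl }
  let h : (Fin n → Pull F R) →ₗ[R] Pull F M := (map F f).comp g
  exact Module.Finite.of_surjective h hf

theorem annihilator_le (hF : ∀ a, a ∣ F a) :
    Module.annihilator R M ≤ Module.annihilator R (Pull F M) := by
  intro a ha
  rw [Module.mem_annihilator] at ha ⊢
  intro m
  obtain ⟨c, hc⟩ := hF a
  change F a • ((of F).symm m) = (0 : M)
  rw [hc, mul_smul]
  exact ha _

end Pull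

section general

variable {k : Type*} [Field k] {A : Type u} [CommRing A] [Algebra k A]

theorem finite_quot_pow [IsNoetherianRing A] (I : Ideal A) [Module.Finite k (A ⧸ I)] (n : ℕ) :
    Module.Finite k (A ⧸ I ^ n) := by
  induction n with
  | zero =>
    have : Subsingleton (A ⧸ I ^ 0) :=
      Ideal.Quotient.subsingleton_iff.2 (by rw [pow_zero, Ideal.one_eq_top])
    infer_instance
  | succ n ih =>
    rw [pow_succ]
    exact finite_quotient_mul (I ^ n) I

/-- Raising the entries to powers preserves `Good`. -/
theorem Good.map_pow [IsNoetherianRing A] {z : List A} {M : Type*} [AddCommGroup M] [Module A M]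
    (h : Good k z M) (q : ℕ) : Good k (z.map (· ^ q)) M := by
  refine ⟨h.finite, ?_⟩
  have hr : Ideal.ofList z ≤ (Ideal.ofList (z.map (· ^ q))).radical := by
    refine Ideal.span_le.2 fun a ha => ⟨q, Ideal.subset_span ?_⟩
    exact List.mem_map.2 ⟨a, ha, rfl⟩
  obtain ⟨N, hN⟩ := Ideal.exists_pow_le_of_le_radical_of_fg hr (IsNoetherian.noetherian _)
  have := h.quot
  have := finite_quot_pow (k := k) (Module.annihilator A M ⊔ Ideal.ofList z) (N + 1)
  refine finite_quot_of_le (I := (Module.annihilator A M ⊔ Ideal.ofList z) ^ (N + 1)) ?_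
  rw [add_comm N 1]
  refine Ideal.sup_pow_add_le_pow_sup_pow.trans (sup_le_sup ?_ hN)
  rw [pow_one]

end general

section frobenius

variable (p : ℕ) [Fact p.Prime] {k : Type*} [Field k] [CharP k p] [PerfectRing k p]
  {R : Type u} [CommRing R] [Algebra k R] [CharP R p] (e : ℕ)

/-- `M` seen through Frobenius: the symbol gets multiplied by `q ^ d`. -/
theorem emult_pull [IsNoetherianRing R] {x : List R} {M : Type u} [AddCommGroup M] [Module R M]
    (h : Good k x M) :
    emult k x (Pull (iterateFrobenius R p e) M) =
      ((p ^ e : ℕ) : ℤ) ^ x.length * emult k x M := by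
  set F := iterateFrobenius R p e
  have h1 := emult_semilinear (iterateFrobeniusEquiv k p e) F
    (fun c => by
      rw [iterateFrobenius_def, iterateFrobeniusEquiv_def, map_pow])
    x (Pull F M) M (Pull.of F).symm (fun a m => rfl)
  rw [h1, show x.map F = x.map (· ^ p ^ e) from
    List.map_congr_left fun a _ => iterateFrobenius_def p e a]
  exact emult_map_pow _ (Nat.one_le_pow _ _ (Fact.out : p.Prime).pos) x M (h.map_pow _)

end frobenius

section baseChange

variable {k : Type*} [Field k] {R : Type u} [CommRing R]
  {S : Type u} [CommRing S] [Algebra R S] [Algebra k S]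

omit [Algebra k S] in
theorem sdim_baseChange_le [Algebra.IsIntegral R S] (M : Type u) [AddCommGroup M] [Module R M] :
    sdim S (S ⊗[R] M) ≤ sdim R M := by
  rw [sdim, sdim, ringKrullDim_quotient, ringKrullDim_quotient]
  have hle : Module.annihilator R M ≤
      (Module.annihilator S (S ⊗[R] M)).comap (algebraMap R S) := by
    intro a ha
    rw [Ideal.mem_comap, Module.mem_annihilator]
    intro t
    induction t with
    | zero => rw [smul_zero]
    | add a b ha hb => rw [smul_add, ha, hb, add_zero]
    | tmul s m =>
      rw [algebraMap_smul, TensorProduct.smul_tmul', TensorProduct.smul_tmul,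
        Module.mem_annihilator.1 ha, TensorProduct.tmul_zero]
  refine Order.krullDim_le_of_strictMono
    (fun q => ⟨⟨q.1.asIdeal.comap (algebraMap R S), inferInstance⟩, ?_⟩) ?_
  · rw [PrimeSpectrum.mem_zeroLocus]
    exact hle.trans (Ideal.comap_mono ((PrimeSpectrum.mem_zeroLocus _ _).1 q.2))
  · intro q q' hqq'
    have hlt : q.1.asIdeal < q'.1.asIdeal := hqq'
    obtain ⟨a, ha', ha⟩ := SetLike.exists_of_lt hlt
    exact Ideal.comap_lt_comap_of_integral_mem_sdiff hlt.le ⟨ha', ha⟩
      (Algebra.IsIntegral.isIntegral a)

theorem good_baseChange [IsNoetherianRing S] {y : List S} [Module.Finite k (S ⧸ Ideal.ofList y)]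
    (M : Type u) [AddCommGroup M] [Module R M] [Module.Finite R M] :
    Good k y (S ⊗[R] M) :=
  ⟨inferInstance, finite_quot_of_le (I := Ideal.ofList y) le_sup_right⟩

theorem emult_baseChange_congr (y : List S) {M N : Type u} [AddCommGroup M] [Module R M]
    [AddCommGroup N] [Module R N] (f : M ≃ₗ[R] N) :
    emult k y (S ⊗[R] M) = emult k y (S ⊗[R] N) :=
  emult_congr (TensorProduct.AlgebraTensorModule.congr (LinearEquiv.refl S S) f)

variable (k) in
theorem emult_baseChange_subsingleton (y : List S) (M : Type u) [AddCommGroup M] [Module R M]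
    [Subsingleton M] : emult k y (S ⊗[R] M) = 0 := by
  have : Subsingleton (S ⊗[R] M) := by
    refine subsingleton_of_forall_eq 0 fun t => ?_
    induction t with
    | zero => rfl
    | add a b ha hb => rw [ha, hb, add_zero]
    | tmul s m => rw [Subsingleton.elim m 0, TensorProduct.tmul_zero]
  exact emult_subsingleton k y _

theorem emult_baseChange_exact [IsNoetherianRing S] [Module.Flat R S] {y : List S}
    [Module.Finite k (S ⧸ Ideal.ofList y)] {M₁ M₂ M₃ : Type u}
    [AddCommGroup M₁] [Module R M₁] [AddCommGroup M₂] [Module R M₂] [Module.Finite R M₂]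
    [AddCommGroup M₃] [Module R M₃] (f : M₁ →ₗ[R] M₂) (g : M₂ →ₗ[R] M₃)
    (hf : Function.Injective f) (hg : Function.Surjective g) (hfg : Function.Exact f g) :
    emult k y (S ⊗[R] M₂) = emult k y (S ⊗[R] M₁) + emult k y (S ⊗[R] M₃) := by
  refine emult_exact y _ _ _ (f.baseChange S) (g.baseChange S) ?_ ?_ ?_ (good_baseChange M₂)
  · rw [LinearMap.baseChange_eq_ltensor]
    exact Module.Flat.lTensor_preserves_injective_linearMap f hf
  · rw [LinearMap.baseChange_eq_ltensor]
    exact LinearMap.lTensor_surjective S hg
  · rw [LinearMap.baseChange_eq_ltensor, LinearMap.baseChange_eq_ltensor]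
    exact lTensor_exact S hfg hg

theorem emult_baseChange_eq_zero [IsNoetherianRing S] [Algebra.IsIntegral R S] {y : List S}
    [Module.Finite k (S ⧸ Ideal.ofList y)] {M : Type u} [AddCommGroup M] [Module R M]
    [Module.Finite R M] (h : sdim R M < (y.length : WithBot ℕ∞)) :
    emult k y (S ⊗[R] M) = 0 :=
  emult_eq_zero y _ (good_baseChange M) (lt_of_le_of_lt (sdim_baseChange_le M) h)

end baseChange

section main

variable {k : Type*} [Field k] {R : Type u} [CommRing R] [IsNoetherianRing R] [Algebra k R]
  {S : Type u} [CommRing S] [Algebra R S] [Algebra k S] [Module.Finite R S] [Module.Flat R S]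
  {x : List R} {y : List S}

omit [IsNoetherianRing R] [Algebra k S] [Module.Finite R S] [Module.Flat R S] in
theorem good_of_finite [Module.Finite k (R ⧸ Ideal.ofList x)] (M : Type u) [AddCommGroup M]
    [Module R M] [Module.Finite R M] : Good k x M :=
  ⟨inferInstance, finite_quot_of_le (I := Ideal.ofList x) le_sup_right⟩

/-- On modules killed by a prime of top dimension both symbols count the same rank. -/
theorem exists_rank_of_killed [Module.Finite k (R ⧸ Ideal.ofList x)]
    [Module.Finite k (S ⧸ Ideal.ofList y)] (hlen : y.length = x.length)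
    (P : Ideal R) [P.IsPrime] (hP : ringKrullDim (R ⧸ P) = (x.length : WithBot ℕ∞))
    (N : Type u) [AddCommGroup N] [Module R N] [Module.Finite R N]
    (hN : P ≤ Module.annihilator R N) :
    ∃ r : ℕ, emult k x N = r * emult k x (R ⧸ P) ∧
      emult k y (S ⊗[R] N) = r * emult k y (S ⊗[R] (R ⧸ P)) := by
  have : IsNoetherianRing S := IsNoetherianRing.of_finite R S
  revert hN
  induction ‹Module.Finite R N› using
    IsNoetherianRing.induction_on_isQuotientEquivQuotientPrime R with
  | subsingleton N =>
    intro _
    exact ⟨0, by simp [emult_subsingleton k x N], by simp [emult_baseChange_subsingleton k y N]⟩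
  | quotient N Q f =>
    intro hN
    have hann : Module.annihilator R N = Q.asIdeal := by
      rw [f.annihilator_eq]; exact Ideal.annihilator_quotient
    rw [hann] at hN
    rcases eq_or_lt_of_le hN with h | h
    · subst h
      exact ⟨1, by simp [emult_congr f], by simp [emult_baseChange_congr (k := k) y f]⟩
    · obtain ⟨a, ha, ha'⟩ := SetLike.exists_of_lt h
      have h1 : ringKrullDim (R ⧸ Q.asIdeal) + 1 ≤ (x.length : WithBot ℕ∞) := by
        rw [← hP]
        refine le_trans (add_le_add (ringKrullDim_quotient_mono ?_) le_rfl)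
          (sdim_quot_prime_step ha')
        exact sup_le hN ((Ideal.span_singleton_le_iff_mem _).2 ha)
      have h2 : sdim R N < (x.length : WithBot ℕ∞) := by
        rw [sdim, hann]
        exact lt_of_add_one_lt (lt_of_le_of_lt h1 (by exact_mod_cast Nat.lt_succ_self _))
      refine ⟨0, ?_, ?_⟩
      · simp [emult_eq_zero x N (good_of_finite N) h2]
      · simp [emult_baseChange_eq_zero (k := k) (y := y) (hlen ▸ h2)]
  | exact N₁ N₂ N₃ f g hf hg hfg h₁ h₃ =>
    intro hN
    obtain ⟨r₁, a₁, b₁⟩ := h₁ (hN.trans (f.annihilator_le_of_injective hf))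
    obtain ⟨r₃, a₃, b₃⟩ := h₃ (hN.trans (g.annihilator_le_of_surjective hg))
    refine ⟨r₁ + r₃, ?_, ?_⟩
    · rw [emult_exact x N₁ N₂ N₃ f g hf hg hfg (good_of_finite N₂), a₁, a₃]
      push_cast
      ring
    · rw [emult_baseChange_exact (y := y) f g hf hg hfg, b₁, b₃]
      push_cast
      ring

variable (p : ℕ) [Fact p.Prime] [CharP k p] [PerfectRing k p] [CharP R p] (e : ℕ)

/-- Frobenius scaling. -/
theorem emult_baseChange_pull [IsLocalRing R] (hF : (iterateFrobenius R p e).Finite)
    [Module.Finite k (R ⧸ Ideal.ofList x)] [Module.Finite k (S ⧸ Ideal.ofList y)]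
    (hx : ∀ a ∈ x, a ∈ IsLocalRing.maximalIdeal R) (hlen : y.length = x.length)
    (M : Type u) [AddCommGroup M] [Module R M] [Module.Finite R M] :
    emult k y (S ⊗[R] Pull (iterateFrobenius R p e) M) =
      ((p ^ e : ℕ) : ℤ) ^ x.length * emult k y (S ⊗[R] M) := by
  have : IsNoetherianRing S := IsNoetherianRing.of_finite R S
  have hdvd : ∀ a, a ∣ iterateFrobenius R p e a := fun a => by
    rw [iterateFrobenius_def]
    exact dvd_pow_self a (pow_pos (Fact.out : p.Prime).pos e).ne'
  induction ‹Module.Finite R M› using
    IsNoetherianRing.induction_on_isQuotientEquivQuotientPrime R with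
  | subsingleton N =>
    have : Subsingleton (Pull (iterateFrobenius R p e) N) := ‹Subsingleton N›
    rw [emult_baseChange_subsingleton k y (Pull _ N), emult_baseChange_subsingleton k y N, mul_zero]
  | quotient N Q f =>
    rw [emult_baseChange_congr y f, emult_baseChange_congr y (Pull.congr _ f)]
    have := Pull.finite (M := R ⧸ Q.asIdeal) _ hF
    have hle : Q.asIdeal ≤ Module.annihilator R (Pull (iterateFrobenius R p e) (R ⧸ Q.asIdeal)) :=
      le_trans (le_of_eq Ideal.annihilator_quotient.symm) (Pull.annihilator_le _ hdvd)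
    have hG := good_of_finite (k := k) (x := x) (R ⧸ Q.asIdeal)
    have hd := hG.sdim_le hx
    rw [sdim, Ideal.annihilator_quotient] at hd
    rcases eq_or_lt_of_le hd with h | h
    · obtain ⟨r, h1, h2⟩ := exists_rank_of_killed (k := k) hlen Q.asIdeal h
        (Pull (iterateFrobenius R p e) (R ⧸ Q.asIdeal)) hle
      have hpos : 0 < emult k x (R ⧸ Q.asIdeal) :=
        emult_pos hx hG (by rw [sdim, Ideal.annihilator_quotient, h])
      rw [emult_pull p e hG] at h1
      rw [h2, mul_right_cancel₀ hpos.ne' h1]
    · have h' : sdim R (R ⧸ Q.asIdeal) < (y.length : WithBot ℕ∞) := by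
        rw [sdim, Ideal.annihilator_quotient, hlen]
        exact h
      rw [emult_baseChange_eq_zero h', emult_baseChange_eq_zero
        (lt_of_le_of_lt (sdim_mono (Pull.annihilator_le _ hdvd)) h'), mul_zero]
  | exact N₁ N₂ N₃ f g hf hg hfg h₁ h₃ =>
    have := Pull.finite (M := N₂) _ hF
    rw [emult_baseChange_exact f g hf hg hfg,
      emult_baseChange_exact (Pull.map _ f) (Pull.map _ g) hf hg hfg, h₁, h₃]
    ring

/-- Frobenius scaling for the ring itself. -/
theorem emult_baseChange_frobenius [IsLocalRing R] (hF : (iterateFrobenius R p e).Finite)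
    [Module.Finite k (R ⧸ Ideal.ofList x)] [Module.Finite k (S ⧸ Ideal.ofList y)]
    (hx : ∀ a ∈ x, a ∈ IsLocalRing.maximalIdeal R) (hlen : y.length = x.length) :
    emult k y (S ⊗[R] Pull (iterateFrobenius R p e) R) =
      ((p ^ e : ℕ) : ℤ) ^ x.length * emult k y S := by
  rw [emult_baseChange_pull p e hF hx hlen R, emult_congr (TensorProduct.AlgebraTensorModule.rid R S S)]

end main

end Vale.Agent.P202
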