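import Vale.Agent.P202.Koszul.Emult

/-!
# P202: vanishing and positivity of the multiplicity symbol
-/

noncomputable section

namespace Vale.Agent.P202

universe u v

open LinearMap

variable {k : Type*} [Field k] {A : Type u} [CommRing A] [Algebra k A]

/-- The dimension of the support of a module. -/
def sdim (A : Type u) [CommRing A] (M : Type v) [AddCommGroup M] [Module A M] : WithBot ℕ∞ :=
  ringKrullDim (A ⧸ Module.annihilator A M)

theorem ringKrullDim_quotient_mono {I J : Ideal A} (h : I ≤ J) :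
    ringKrullDim (A ⧸ J) ≤ ringKrullDim (A ⧸ I) :=
  ringKrullDim_le_of_surjective (Ideal.Quotient.factor h) (Ideal.Quotient.factor_surjective h)

theorem sdim_mono {M N : Type v} [AddCommGroup M] [Module A M] [AddCommGroup N] [Module A N]
    (h : Module.annihilator A M ≤ Module.annihilator A N) : sdim A N ≤ sdim A M :=
  ringKrullDim_quotient_mono h

theorem le_ringKrullDim_quotient_mul (I J : Ideal A) {n : ℕ}
    (h : (n : WithBot ℕ∞) ≤ ringKrullDim (A ⧸ I * J)) :
    (n : WithBot ℕ∞) ≤ ringKrullDim (A ⧸ I) ∨ (n : WithBot ℕ∞) ≤ ringKrullDim (A ⧸ J) := by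
  rw [ringKrullDim_quotient, Order.le_krullDim_iff] at h
  obtain ⟨l, hl⟩ := h
  simp only [ringKrullDim_quotient, Order.le_krullDim_iff]
  have h0 : I * J ≤ (l.head.1).asIdeal := (PrimeSpectrum.mem_zeroLocus _ _).1 l.head.2
  have sub : ∀ K : Ideal A, K ≤ (l.head.1).asIdeal →
      ∃ l' : LTSeries (PrimeSpectrum.zeroLocus (R := A) K), l'.length = n := by
    intro K hK
    refine ⟨⟨l.length, fun i => ⟨(l i).1, ?_⟩, fun i => l.step i⟩, hl⟩
    rw [PrimeSpectrum.mem_zeroLocus]
    exact le_trans hK (l.head_le i)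
  rcases (l.head.1).isPrime.mul_le.1 h0 with h | h
  · exact Or.inl (sub I h)
  · exact Or.inr (sub J h)

theorem ringKrullDim_quotient_le_length [IsNoetherianRing A] [IsLocalRing A] (I : Ideal A)
    (zs : List A) (hzs : ∀ z ∈ zs, z ∈ IsLocalRing.maximalIdeal A)
    [Module.Finite k (A ⧸ (I ⊔ Ideal.ofList zs))] :
    ringKrullDim (A ⧸ I) ≤ (zs.length : WithBot ℕ∞) := by
  classical
  by_cases hI : I = ⊤
  · rw [hI, ringKrullDim_eq_bot_of_subsingleton]
    exact bot_le
  have : Nontrivial (A ⧸ I) := Ideal.Quotient.nontrivial_iff.2 hI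
  set s : Finset (A ⧸ I) := (zs.map (Ideal.Quotient.mk I)).toFinset with hs
  have hle : I ≤ IsLocalRing.maximalIdeal A := IsLocalRing.le_maximalIdeal hI
  have hjac : (s : Set (A ⧸ I)) ⊆ Ring.jacobson (A ⧸ I) := by
    intro a ha
    simp only [hs, List.coe_toFinset, List.mem_map, Set.mem_setOf_eq] at ha
    obtain ⟨z, hz, rfl⟩ := ha
    rw [Ring.jacobson_eq_sInf_isMaximal]
    simp only [SetLike.mem_coe, Ideal.mem_sInf, Set.mem_setOf_eq]
    intro m hm
    have : (m.comap (Ideal.Quotient.mk I)).IsMaximal :=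
      Ideal.comap_isMaximal_of_surjective _ Ideal.Quotient.mk_surjective
    rw [← Ideal.mem_comap, IsLocalRing.eq_maximalIdeal this]
    exact hzs z hz
  refine (ringKrullDim_le_ringKrullDim_quotient_add_card s hjac).trans ?_
  have hsp : Ideal.span (s : Set (A ⧸ I)) = (Ideal.ofList zs).map (Ideal.Quotient.mk I) := by
    rw [Ideal.map_span, hs, List.coe_toFinset]
    congr 1
    ext a
    simp
  have e : ((A ⧸ I) ⧸ Ideal.span (s : Set (A ⧸ I))) ≃+* A ⧸ (I ⊔ Ideal.ofList zs) :=
    (Ideal.quotEquivOfEq hsp).trans (DoubleQuot.quotQuotEquivQuotSup I (Ideal.ofList zs))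
  have : IsArtinianRing (A ⧸ (I ⊔ Ideal.ofList zs)) := IsArtinianRing.of_finite k _
  have h0 : ringKrullDim (A ⧸ (I ⊔ Ideal.ofList zs)) ≤ 0 := by
    have := (inferInstance : Ring.KrullDimLE 0 (A ⧸ (I ⊔ Ideal.ofList zs)))
    exact Ring.krullDimLE_iff.1 this
  rw [ringKrullDim_eq_of_ringEquiv e]
  refine (add_le_add h0 (le_refl _)).trans ?_
  rw [zero_add]
  exact_mod_cast (List.toFinset_card_le _).trans (by simp)

theorem Good.sdim_le [IsNoetherianRing A] [IsLocalRing A] {z : List A}
    (hzs : ∀ x ∈ z, x ∈ IsLocalRing.maximalIdeal A) {M : Type v} [AddCommGroup M] [Module A M]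
    (h : Good k z M) : sdim A M ≤ (z.length : WithBot ℕ∞) := by
  have := h.quot
  exact ringKrullDim_quotient_le_length (k := k) _ z hzs

theorem sdim_quot_prime_step [IsNoetherianRing A] {p : Ideal A} [p.IsPrime] {x : A} (hx : x ∉ p) :
    ringKrullDim (A ⧸ (p ⊔ Ideal.span {x})) + 1 ≤ ringKrullDim (A ⧸ p) := by
  have hne : (Ideal.Quotient.mk p x) ∈ nonZeroDivisors (A ⧸ p) :=
    mem_nonZeroDivisors_of_ne_zero fun h => hx (Ideal.Quotient.eq_zero_iff_mem.1 h)
  have e : ((A ⧸ p) ⧸ Ideal.span {Ideal.Quotient.mk p x}) ≃+* A ⧸ (p ⊔ Ideal.span {x}) :=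
    (Ideal.quotEquivOfEq (by rw [Ideal.map_span, Set.image_singleton])).trans
      (DoubleQuot.quotQuotEquivQuotSup p (Ideal.span {x}))
  rw [← ringKrullDim_eq_of_ringEquiv e]
  exact ringKrullDim_quotient_succ_le_of_nonZeroDivisor hne

theorem sdim_quot_prime_ge [IsNoetherianRing A] [IsLocalRing A] {p : Ideal A} [p.IsPrime] {x : A}
    (hxm : x ∈ IsLocalRing.maximalIdeal A) :
    ringKrullDim (A ⧸ p) ≤ ringKrullDim (A ⧸ (p ⊔ Ideal.span {x})) + 1 := by
  classical
  have e : ((A ⧸ p) ⧸ Ideal.span (({Ideal.Quotient.mk p x} : Finset (A ⧸ p)) : Set (A ⧸ p))) ≃+*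
      A ⧸ (p ⊔ Ideal.span {x}) :=
    (Ideal.quotEquivOfEq (by rw [Ideal.map_span, Set.image_singleton, Finset.coe_singleton])).trans
      (DoubleQuot.quotQuotEquivQuotSup p (Ideal.span {x}))
  rw [← ringKrullDim_eq_of_ringEquiv e]
  refine (ringKrullDim_le_ringKrullDim_quotient_add_card {Ideal.Quotient.mk p x} ?_).trans ?_
  · intro a ha
    rw [Finset.coe_singleton, Set.mem_singleton_iff] at ha
    subst ha
    rw [Ring.jacobson_eq_sInf_isMaximal]
    simp only [SetLike.mem_coe, Ideal.mem_sInf, Set.mem_setOf_eq]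
    intro m hm
    have : (m.comap (Ideal.Quotient.mk p)).IsMaximal :=
      Ideal.comap_isMaximal_of_surjective _ Ideal.Quotient.mk_surjective
    rw [← Ideal.mem_comap, IsLocalRing.eq_maximalIdeal this]
    exact hxm
  · simp

theorem lt_of_add_one_lt {a : WithBot ℕ∞} {n : ℕ}
    (h : a + 1 < ((n + 1 : ℕ) : WithBot ℕ∞)) : a < (n : WithBot ℕ∞) := by
  by_contra hc
  rw [not_lt] at hc
  have := add_le_add hc (le_refl (1 : WithBot ℕ∞))
  exact absurd (lt_of_lt_of_le h (by exact_mod_cast this)) (lt_irrefl _)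

theorem le_of_add_one_le {a : WithBot ℕ∞} {n : ℕ}
    (h : ((n + 1 : ℕ) : WithBot ℕ∞) ≤ a + 1) : (n : WithBot ℕ∞) ≤ a := by
  by_contra hc
  rw [not_le] at hc
  induction a using WithBot.recBotCoe with
  | bot => simp at h
  | coe a =>
    induction a using ENat.recTopCoe with
    | top => simp at hc
    | coe a =>
      norm_cast at h hc
      omega

theorem annihilator_sup_le_quot (p : Ideal A) (x : A) :
    p ⊔ Ideal.span {x} ≤ Module.annihilator A ((A ⧸ p) ⧸ range (lsmul A (A ⧸ p) x)) := by
  refine sup_le ?_ ?_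
  · intro a ha
    rw [Module.mem_annihilator]
    intro m
    obtain ⟨m, rfl⟩ := Submodule.Quotient.mk_surjective _ m
    obtain ⟨m, rfl⟩ := Ideal.Quotient.mk_surjective m
    rw [← Submodule.Quotient.mk_smul, Algebra.smul_def, Ideal.Quotient.algebraMap_eq,
      Ideal.Quotient.eq_zero_iff_mem.2 ha, zero_mul, Submodule.Quotient.mk_zero]
  · rw [Ideal.span_singleton_le_iff_mem, Module.mem_annihilator]
    intro m
    obtain ⟨m, rfl⟩ := Submodule.Quotient.mk_surjective _ m
    rw [← Submodule.Quotient.mk_smul, Submodule.Quotient.mk_eq_zero]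
    exact ⟨m, rfl⟩

theorem annihilator_le_sup_quot (p : Ideal A) (x : A) :
    Module.annihilator A ((A ⧸ p) ⧸ range (lsmul A (A ⧸ p) x)) ≤ p ⊔ Ideal.span {x} := by
  intro a ha
  have := Module.mem_annihilator.1 ha (Submodule.Quotient.mk (1 : A ⧸ p))
  rw [← Submodule.Quotient.mk_smul, Submodule.Quotient.mk_eq_zero] at this
  obtain ⟨b, hb⟩ := this
  obtain ⟨b, rfl⟩ := Ideal.Quotient.mk_surjective b
  rw [lsmul_apply, Algebra.smul_def, Algebra.smul_def, mul_one,
    Ideal.Quotient.algebraMap_eq, ← map_mul, Ideal.Quotient.eq] at hb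
  rw [show a = (a - x * b) + x * b by ring]
  exact Submodule.add_mem_sup (neg_sub (x * b) a ▸ p.neg_mem hb)
    (Ideal.mul_mem_right _ _ (Ideal.mem_span_singleton_self x))

theorem emult_quot_prime_of_mem {p : Ideal A} {x : A} (hx : x ∈ p) (zs : List A) :
    emult k (x :: zs) (A ⧸ p) = 0 := by
  have h0 : lsmul A (A ⧸ p) x = 0 := by
    ext
    simp [Algebra.smul_def, Ideal.Quotient.eq_zero_iff_mem.2 hx]
  rw [emult_cons, emult_congr (Submodule.quotEquivOfEqBot _ (by rw [h0, LinearMap.range_zero])),
    emult_congr ((LinearEquiv.ofEq _ ⊤ (by rw [h0, LinearMap.ker_zero])).trans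
      Submodule.topEquiv), sub_self]

theorem emult_quot_prime_of_notMem {p : Ideal A} [p.IsPrime] {x : A} (hx : x ∉ p) (zs : List A) :
    emult k (x :: zs) (A ⧸ p) = emult k zs ((A ⧸ p) ⧸ range (lsmul A (A ⧸ p) x)) := by
  have hk : ker (lsmul A (A ⧸ p) x) = ⊥ := by
    rw [LinearMap.ker_eq_bot']
    intro a ha
    rw [lsmul_apply, Algebra.smul_def] at ha
    exact (mul_eq_zero.1 ha).resolve_left fun h => hx (Ideal.Quotient.eq_zero_iff_mem.1 h)
  have : Subsingleton (ker (lsmul A (A ⧸ p) x)) := by rw [hk]; infer_instance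
  rw [emult_cons, emult_subsingleton k zs (ker (lsmul A (A ⧸ p) x)), sub_zero]

/-- Vanishing in small dimension. -/
theorem emult_eq_zero [IsNoetherianRing A] : ∀ (z : List A) (M : Type u) [AddCommGroup M]
    [Module A M], Good k z M → sdim A M < (z.length : WithBot ℕ∞) → emult k z M = 0 := by
  intro z
  induction z with
  | nil =>
    intro M _ _ _ hd
    have : Subsingleton M := by
      by_contra hM
      rw [not_subsingleton_iff_nontrivial] at hM
      have : Nontrivial (A ⧸ Module.annihilator A M) := Ideal.Quotient.nontrivial_iff.2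
        fun h => by
          obtain ⟨m, hm⟩ := exists_ne (0 : M)
          exact hm (by simpa using Module.mem_annihilator.1 (h ▸ Submodule.mem_top : (1 : A) ∈ _) m)
      exact absurd hd (not_lt.2 (by simpa [sdim] using ringKrullDim_nonneg_of_nontrivial))
    exact emult_subsingleton k [] M
  | cons x zs ih =>
    intro M _ _ hG hd
    have := hG.finite
    revert hG hd
    induction ‹Module.Finite A M› using
      IsNoetherianRing.induction_on_isQuotientEquivQuotientPrime A with
    | subsingleton N => exact fun _ _ => emult_subsingleton k _ N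
    | quotient N p f =>
      intro hG hd
      rw [emult_congr f]
      have hann : Module.annihilator A N = p.asIdeal := by
        rw [f.annihilator_eq]; exact Ideal.annihilator_quotient
      rw [sdim, hann] at hd
      by_cases hx : x ∈ p.asIdeal
      · exact emult_quot_prime_of_mem hx zs
      · rw [emult_quot_prime_of_notMem hx zs]
        have hG' : Good k (x :: zs) (A ⧸ p.asIdeal) := hG.of_surjective f.toLinearMap f.surjective
        have h1 := lt_of_add_one_lt (lt_of_le_of_lt (sdim_quot_prime_step hx) hd)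
        exact ih _ hG'.cons_quot
          (lt_of_le_of_lt (ringKrullDim_quotient_mono (annihilator_sup_le_quot p.asIdeal x)) h1)
    | exact N₁ N₂ N₃ f g hf hg hfg h₁ h₃ =>
      intro hG hd
      rw [emult_exact (x :: zs) N₁ N₂ N₃ f g hf hg hfg hG,
        h₁ (hG.of_injective f hf) (lt_of_le_of_lt (sdim_mono (f.annihilator_le_of_injective hf)) hd),
        h₃ (hG.of_surjective g hg)
          (lt_of_le_of_lt (sdim_mono (g.annihilator_le_of_surjective hg)) hd), add_zero]

/-- Nonnegativity, and positivity in top dimension. -/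
theorem emult_nonneg [IsNoetherianRing A] [IsLocalRing A] : ∀ (z : List A),
    (∀ x ∈ z, x ∈ IsLocalRing.maximalIdeal A) → ∀ (M : Type u) [AddCommGroup M]
    [Module A M], Good k z M →
      0 ≤ emult k z M ∧ ((z.length : WithBot ℕ∞) ≤ sdim A M → 0 < emult k z M) := by
  intro z
  induction z with
  | nil =>
    intro _ M _ _ hG
    letI := Module.compHom M (algebraMap k A)
    haveI : IsScalarTower k A M := IsScalarTower.of_algebraMap_smul fun _ _ => rfl
    have := hG.finiteDimensional
    change (0 : ℤ) ≤ Module.finrank k M ∧ (_ → (0 : ℤ) < Module.finrank k M)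
    refine ⟨Int.natCast_nonneg _, fun hd => ?_⟩
    have : Nontrivial M := by
      rw [← not_subsingleton_iff_nontrivial]
      intro hM
      have htop : Module.annihilator A M = ⊤ := by
        rw [Ideal.eq_top_iff_one, Module.mem_annihilator]
        exact fun m => Subsingleton.elim _ _
      rw [sdim, htop, ringKrullDim_eq_bot_of_subsingleton] at hd
      simp at hd
    exact_mod_cast Module.finrank_pos
  | cons x zs ih =>
    intro hzm M _ _ hG
    have hxm := hzm x List.mem_cons_self
    have hzs : ∀ y ∈ zs, y ∈ IsLocalRing.maximalIdeal A :=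
      fun y hy => hzm y (List.mem_cons_of_mem x hy)
    have := hG.finite
    revert hG
    induction ‹Module.Finite A M› using
      IsNoetherianRing.induction_on_isQuotientEquivQuotientPrime A with
    | subsingleton N =>
      intro _
      rw [emult_subsingleton k _ N]
      refine ⟨le_rfl, fun hd => absurd hd ?_⟩
      have htop : Module.annihilator A N = ⊤ := by
        rw [Ideal.eq_top_iff_one, Module.mem_annihilator]
        exact fun m => Subsingleton.elim _ _
      rw [sdim, htop, ringKrullDim_eq_bot_of_subsingleton]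
      simp
    | quotient N p f =>
      intro hG
      rw [emult_congr f]
      have hann : Module.annihilator A N = p.asIdeal := by
        rw [f.annihilator_eq]; exact Ideal.annihilator_quotient
      rw [sdim, hann]
      have hG' : Good k (x :: zs) (A ⧸ p.asIdeal) := hG.of_surjective f.toLinearMap f.surjective
      by_cases hx : x ∈ p.asIdeal
      · rw [emult_quot_prime_of_mem hx zs]
        refine ⟨le_rfl, fun hd => absurd hd (not_le.2 ?_)⟩
        have := hG'.quot
        rw [Ideal.annihilator_quotient, Ideal.ofList_cons] at this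
        have : Module.Finite k (A ⧸ (p.asIdeal ⊔ Ideal.ofList zs)) :=
          finite_quot_of_le (I := p.asIdeal ⊔ (Ideal.span {x} ⊔ Ideal.ofList zs))
            (sup_le le_sup_left (sup_le ((Ideal.span_singleton_le_iff_mem _).2
              (Ideal.mem_sup_left hx)) le_sup_right))
        refine lt_of_le_of_lt (ringKrullDim_quotient_le_length (k := k) _ zs hzs) ?_
        rw [List.length_cons]
        exact_mod_cast Nat.lt_succ_self _
      · rw [emult_quot_prime_of_notMem hx zs]
        obtain ⟨h0, h1⟩ := ih hzs _ hG'.cons_quot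
        refine ⟨h0, fun hd => h1 ?_⟩
        rw [List.length_cons] at hd
        exact (le_of_add_one_le (hd.trans (sdim_quot_prime_ge hxm))).trans
          (ringKrullDim_quotient_mono (annihilator_le_sup_quot p.asIdeal x))
    | exact N₁ N₂ N₃ f g hf hg hfg h₁ h₃ =>
      intro hG
      obtain ⟨a0, a1⟩ := h₁ (hG.of_injective f hf)
      obtain ⟨b0, b1⟩ := h₃ (hG.of_surjective g hg)
      rw [emult_exact (x :: zs) N₁ N₂ N₃ f g hf hg hfg hG]
      refine ⟨add_nonneg a0 b0, fun hd => ?_⟩
      rcases le_ringKrullDim_quotient_mul _ _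
        (hd.trans (ringKrullDim_quotient_mono (annihilator_mul_le hfg))) with h | h
      · exact add_pos_of_pos_of_nonneg (a1 h) b0
      · exact add_pos_of_nonneg_of_pos a0 (b1 h)

theorem emult_pos [IsNoetherianRing A] [IsLocalRing A] {z : List A}
    (hz : ∀ x ∈ z, x ∈ IsLocalRing.maximalIdeal A) {M : Type u} [AddCommGroup M]
    [Module A M] (hG : Good k z M) (hd : (z.length : WithBot ℕ∞) ≤ sdim A M) :
    0 < emult k z M :=
  (emult_nonneg z hz M hG).2 hd

end Vale.Agent.P202
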