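import Vale.Agent.P202.Koszul.Emult
import Vale.Agent.P202.HomAlg.Coef
import Vale.Agent.P202.Diag.Euler

/-!
# P202: the Koszul Euler characteristic is the multiplicity symbol

Tensoring a complex `G` with `z : A → A` gives on `M` the difference of the values of `G` on
`M / z M` and on the kernel of `z`.
-/

noncomputable section

namespace Vale.Agent.P202

universe v

namespace Diff

section Shift

variable {k M : Type*} [CommRing k] [AddCommGroup M] [Module k M] (D : Diff k M)

/-- The same differential with positions moved up by one. -/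
def shift : Diff k M where
  d := D.d
  deg j := D.deg (j - 1)
  d_d := D.d_d
  d_deg j x hx := D.d_deg (j - 1) x hx

theorem bdries_shift (X Y : Submodule k M) (j : ℤ) :
    D.shift.bdries X Y j = D.bdries X Y (j - 1) := by
  simp only [bdries, shift, add_sub_cancel_right, sub_add_cancel]

/-- Homology of the shift. -/
def shiftEquiv (X Y : Submodule k M) (j : ℤ) : D.shift.H X Y j ≃ₗ[k] D.H X Y (j - 1) :=
  Submodule.quotEquivOfEq _ _ (by rw [bdries_shift]; rfl)

theorem fin'_shift {X Y : Submodule k M} (h : D.Fin' X Y) : D.shift.Fin' X Y := by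
  obtain ⟨N, hN⟩ := h.bounded
  refine ⟨fun j => ?_, N + 1, fun j hj => ?_⟩
  · haveI := h.finite (j - 1)
    exact Module.Finite.equiv (D.shiftEquiv X Y j).symm
  · haveI := hN (j - 1) (by omega)
    exact (D.shiftEquiv X Y j).toEquiv.subsingleton

theorem chi_shift (X Y : Submodule k M) : D.shift.chi X Y = -D.chi X Y := by
  rw [chi, chi, ← finsum_neg_distrib, ← finsum_comp_equiv (Equiv.addRight (1 : ℤ))]
  refine finsum_congr fun j => ?_
  rw [betti, (D.shiftEquiv X Y _).finrank_eq, Equiv.coe_addRight, add_sub_cancel_right]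
  simp [Int.negOnePow_succ, betti]

end Shift

theorem fin'_of_subsingleton {k M : Type*} [Field k] [AddCommGroup M] [Module k M] (D : Diff k M)
    (X Y : Submodule k M) (h : ∀ j, Subsingleton (D.H X Y j)) :
    D.Fin' X Y ∧ D.chi X Y = 0 := by
  refine ⟨⟨fun j => inferInstance, 0, fun j _ => h j⟩, ?_⟩
  simp [chi, betti, Module.finrank_zero_of_subsingleton]

end Diff

namespace FreeCx

variable {A : Type*} [CommRing A] (G : FreeCx A) (z : A)

section dA

variable {M : Type*} [AddCommGroup M] [Module A M]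

theorem koszul1_mat (i j : Fin 2) :
    ((koszul1 z).mat : Matrix (Fin 2) (Fin 2) A) i j = if i = 0 ∧ j = 1 then z else 0 := by
  show (!![0, z; 0, 0] : Matrix (Fin 2) (Fin 2) A) i j = _
  fin_cases i <;> fin_cases j <;> simp

/-- The differential of `G.tensor (koszul1 z)`, written out. -/
theorem dA_two (f : G.ι × Fin 2 → M) (h : G.ι) (i : Fin 2) :
    ((G.tensor (koszul1 z)).dA M f : G.ι × Fin 2 → M) (h, i) =
      G.dA M (fun g => f (g, i)) h +
        if i = 0 then (G.sgn h * z) • f (h, 1) else 0 := by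
  show (∑ q : G.ι × Fin 2, ((if i = q.2 then G.mat h q.1 else 0) +
      if h = q.1 then G.sgn h * ((koszul1 z).mat : Matrix (Fin 2) (Fin 2) A) i q.2 else 0) • f q)
    = (∑ g, G.mat h g • f (g, i)) + _
  rw [Fintype.sum_prod_type]
  simp only [Fin.sum_univ_two, koszul1_mat]
  fin_cases i <;> simp [add_smul, ite_smul, Finset.sum_add_distrib]

theorem sgn_mul_sgn (h : G.ι) : G.sgn h * G.sgn h = 1 := by
  simp [sgn, ← pow_add, ← two_mul, pow_mul]

theorem dA_sgn_smul (u : G.ι → M) (h : G.ι) :
    G.dA M (fun g => G.sgn g • u g) h = -(G.sgn h • G.dA M u h) := by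
  simp only [dA_apply, Finset.smul_sum, ← Finset.sum_neg_distrib, smul_smul, ← neg_smul]
  refine Finset.sum_congr rfl fun g _ => ?_
  by_cases h0 : G.mat h g = 0
  · simp [h0]
  · rw [sgn, sgn, G.mat_pos h g h0, pow_succ]
    congr 1
    ring

end dA

section main

variable {k : Type*} [Field k] [Algebra k A] {M : Type*} [AddCommGroup M] [Module A M] [Module k M]
  [IsScalarTower k A M]

open LinearMap in
/-- Tensoring with a two-term complex. -/
theorem tensor_koszul1 (hq : G.FiniteHom (M ⧸ range (lsmul A M z)) k)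
    (hk : G.FiniteHom (ker (lsmul A M z)) k) :
    (G.tensor (koszul1 z)).FiniteHom M k ∧
      (G.tensor (koszul1 z)).chi M k =
        G.chi (M ⧸ range (lsmul A M z)) k - G.chi (ker (lsmul A M z)) k := by
  classical
  let T : Diff k (G.ι × Fin 2 → M) := (G.tensor (koszul1 z)).diff M k
  let X₁ : Submodule k ((G.ι × Fin 2 → M)) :=
    { carrier := {f | ∀ h, f (h, (0 : Fin 2)) ∈ range (lsmul A M z)}
      add_mem' := fun hf hf' h => Submodule.add_mem _ (hf h) (hf' h)
      zero_mem' := fun h => Submodule.zero_mem _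
      smul_mem' := fun c f hf h => Submodule.smul_of_tower_mem _ c (hf h) }
  let A₁ : Submodule k ((G.ι × Fin 2 → M)) :=
    { carrier := {f | ∀ h, f (h, (0 : Fin 2)) = 0 ∧ z • f (h, (1 : Fin 2)) = 0}
      add_mem' := fun {f f'} hf hf' h =>
        ⟨show f (h, (0 : Fin 2)) + f' (h, (0 : Fin 2)) = 0 by rw [(hf h).1, (hf' h).1, add_zero],
          show z • (f (h, (1 : Fin 2)) + f' (h, (1 : Fin 2))) = 0 by
            rw [smul_add, (hf h).2, (hf' h).2, add_zero]⟩
      zero_mem' := fun h => ⟨rfl, smul_zero z⟩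
      smul_mem' := fun c f hf h =>
        ⟨show c • f (h, (0 : Fin 2)) = 0 by rw [(hf h).1, smul_zero],
          show z • c • f (h, (1 : Fin 2)) = 0 by rw [smul_comm, (hf h).2, smul_zero]⟩ }
  have hA₁ : A₁ ≤ X₁ := fun f hf h => (hf h).1 ▸ Submodule.zero_mem _
  have hd0 : ∀ (f : (G.ι × Fin 2 → M)) h, T.d f (h, (0 : Fin 2)) =
      G.dA M (fun g => f (g, (0 : Fin 2))) h + (G.sgn h * z) • f (h, (1 : Fin 2)) := fun f h =>
    (G.dA_two z f h 0).trans (by simp)
  have hd1 : ∀ (f : (G.ι × Fin 2 → M)) h, T.d f (h, (1 : Fin 2)) =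
      G.dA M (fun g => f (g, (1 : Fin 2))) h := fun f h =>
    (G.dA_two z f h 1).trans (by simp)
  -- the quotient
  let φ : (G.ι × Fin 2 → M) →ₗ[k] (G.ι → M ⧸ range (lsmul A M z)) :=
    { toFun := fun f h => Submodule.Quotient.mk (f (h, (0 : Fin 2)))
      map_add' := fun f f' => rfl
      map_smul' := fun c f => rfl }
  have P₁ : Diff.PairMap T (G.diff (M ⧸ range (lsmul A M z)) k) φ ⊤ X₁ ⊤ ⊥ :=
    { comm := fun f => by
        funext h
        have h0 : (Submodule.Quotient.mk ((G.sgn h * z) • f (h, (1 : Fin 2))) :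
            M ⧸ range (lsmul A M z)) = 0 :=
          (Submodule.Quotient.mk_eq_zero _).2 ⟨G.sgn h • f (h, (1 : Fin 2)), by
            rw [lsmul_apply, smul_smul, mul_comm]⟩
        show Submodule.Quotient.mk (T.d f (h, (0 : Fin 2))) = G.dA _ (φ f) h
        rw [hd0, Submodule.Quotient.mk_add, h0, add_zero, dA_apply, dA_apply]
        exact map_sum (range (lsmul A M z)).mkQ _ _
      deg := fun j f hf g hg => by
        show Submodule.Quotient.mk (f (g, (0 : Fin 2))) = 0
        have hz : f (g, (0 : Fin 2)) = 0 := hf (g, (0 : Fin 2)) (by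
          show ((G.pos g + ((0 : Fin 2) : ℕ) : ℕ) : ℤ) ≠ j
          simpa using hg)
        rw [hz]
        rfl
      maps := fun _ _ => trivial
      surj := fun j u _ hu => by
        choose r hr using fun h => Submodule.Quotient.mk_surjective _ (u h)
        refine ⟨fun q => if q.2 = (0 : Fin 2) ∧ (G.pos q.1 : ℤ) = j then r q.1 else 0, trivial,
          fun q hq' => if_neg fun h12 => hq' ?_, funext fun h => ?_⟩
        · obtain ⟨g, i⟩ := q
          obtain ⟨h1, h2⟩ := h12
          subst h1
          show ((G.pos g + ((0 : Fin 2) : ℕ) : ℕ) : ℤ) = j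
          simpa using h2
        · show Submodule.Quotient.mk (if (0 : Fin 2) = 0 ∧ _ then r h else 0) = u h
          by_cases hh : (G.pos h : ℤ) = j
          · rw [if_pos ⟨rfl, hh⟩, hr]
          · rw [if_neg (fun h' => hh h'.2), Submodule.Quotient.mk_zero, hu h hh]
      ker := fun f _ => by
        rw [Submodule.mem_bot, funext_iff]
        exact forall_congr' fun h => Submodule.Quotient.mk_eq_zero _
      le := le_top
      le' := bot_le
      stable := fun _ _ => trivial }
  -- the kernel
  let ψ : (G.ι → ker (lsmul A M z)) →ₗ[k] (G.ι × Fin 2 → M) :=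
    { toFun := fun u q => if q.2 = (0 : Fin 2) then 0 else (u q.1 : M)
      map_add' := fun u u' => funext fun q => by
        show (if q.2 = (0 : Fin 2) then (0 : M) else ((u q.1 + u' q.1 : ker (lsmul A M z)) : M)) =
          (if q.2 = (0 : Fin 2) then (0 : M) else (u q.1 : M)) +
            if q.2 = (0 : Fin 2) then (0 : M) else (u' q.1 : M)
        split_ifs <;> simp
      map_smul' := fun c u => funext fun q => by
        show (if q.2 = (0 : Fin 2) then (0 : M) else ((c • u q.1 : ker (lsmul A M z)) : M)) =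
          c • if q.2 = (0 : Fin 2) then (0 : M) else (u q.1 : M)
        split_ifs <;> simp }
  have hψ0 : ∀ u h, ψ u (h, (0 : Fin 2)) = 0 := fun u h => by simp [ψ]
  have hψ1 : ∀ u h, ψ u (h, (1 : Fin 2)) = (u h : M) := fun u h => by simp [ψ]
  have P₂ : Diff.PairMap (G.diff (ker (lsmul A M z)) k).shift T ψ ⊤ ⊥ A₁ ⊥ :=
    { comm := fun u => by
        funext q
        obtain ⟨h, i⟩ := q
        rcases (show i = (0 : Fin 2) ∨ i = (1 : Fin 2) from Fin.exists_fin_two.1 ⟨i, rfl⟩) with
          rfl | rfl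
        · rw [hd0, hψ0, hψ1, show (fun g => ψ u (g, (0 : Fin 2))) = 0 from funext (hψ0 u), map_zero,
            Pi.zero_apply, zero_add, mul_smul]
          have := (u h).2
          rw [mem_ker, lsmul_apply] at this
          rw [this, smul_zero]
        · rw [hd1, hψ1, funext (hψ1 u)]
          show ((G.dA (ker (lsmul A M z)) u h : ker (lsmul A M z)) : M) = _
          rw [dA_apply, dA_apply, Submodule.coe_sum]
          rfl
      deg := fun j u hu q hq' => by
        obtain ⟨h, i⟩ := q
        rcases (show i = (0 : Fin 2) ∨ i = (1 : Fin 2) from Fin.exists_fin_two.1 ⟨i, rfl⟩) with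
          rfl | rfl
        · exact hψ0 u h
        · have hp : ((G.pos h + 1 : ℕ) : ℤ) ≠ j := hq'
          push_cast at hp
          exact (hψ1 u h).trans (by rw [hu h (by omega)]; rfl)
      maps := fun u _ h => ⟨hψ0 u h, by rw [hψ1]; exact (u h).2⟩
      surj := fun j f hf hdeg => by
        refine ⟨fun h => ⟨f (h, (1 : Fin 2)), (hf h).2⟩, trivial, fun g hg => Subtype.ext ?_,
          funext fun q => ?_⟩
        · refine hdeg (g, (1 : Fin 2)) ?_
          show ((G.pos g + 1 : ℕ) : ℤ) ≠ j
          push_cast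
          omega
        · obtain ⟨h, i⟩ := q
          rcases (show i = (0 : Fin 2) ∨ i = (1 : Fin 2) from Fin.exists_fin_two.1 ⟨i, rfl⟩) with
            rfl | rfl
          · rw [hψ0]
            exact (hf h).1.symm
          · rw [hψ1]
      ker := fun u _ => by
        rw [Submodule.mem_bot, Submodule.mem_bot]
        refine ⟨fun h => funext fun g => Subtype.ext ?_, fun h => by rw [h, map_zero]⟩
        have := congrFun h (g, (1 : Fin 2))
        rwa [hψ1] at this
      le := bot_le
      le' := bot_le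
      stable := fun _ _ => trivial }
  -- the middle piece is acyclic
  have hmid : ∀ j, Subsingleton (T.H X₁ A₁ j) := by
    intro j
    refine subsingleton_of_forall_eq 0 fun ξ => ?_
    obtain ⟨⟨f, hfc⟩, rfl⟩ := Submodule.Quotient.mk_surjective _ ξ
    rw [Diff.mk_eq_zero_iff]
    obtain ⟨hfX, hfd, hfA⟩ := T.mem_cycles.1 hfc
    change f ∈ T.bdries X₁ A₁ j
    choose u hu using fun h => hfX h
    let w : (G.ι × Fin 2 → M) := fun q =>
      if q.2 = (1 : Fin 2) ∧ (G.pos q.1 : ℤ) = j then G.sgn q.1 • u q.1 else 0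
    have hw0 : ∀ h, w (h, (0 : Fin 2)) = 0 := fun h => by simp [w]
    have hzw : ∀ h, z • w (h, (1 : Fin 2)) = G.sgn h • f (h, (0 : Fin 2)) := by
      intro h
      by_cases hh : (G.pos h : ℤ) = j
      · rw [show w (h, (1 : Fin 2)) = G.sgn h • u h from if_pos ⟨rfl, hh⟩, smul_comm,
          ← lsmul_apply (R := A) z (u h), hu h]
      · have hf0 : f (h, (0 : Fin 2)) = 0 := hfd (h, (0 : Fin 2)) (by
            show ((G.pos h + ((0 : Fin 2) : ℕ) : ℕ) : ℤ) ≠ j
            simpa using hh)
        rw [show w (h, (1 : Fin 2)) = 0 from if_neg (fun h' => hh h'.2), smul_zero, hf0, smul_zero]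
    have hwd : w ∈ T.deg (j + 1) := fun q hq' => if_neg fun ⟨h1, h2⟩ => hq' (by
      obtain ⟨g, i⟩ := q
      subst h1
      show ((G.pos g + 1 : ℕ) : ℤ) = j + 1
      push_cast
      exact congrArg (· + 1) h2)
    have hdw : ∀ h, T.d w (h, (0 : Fin 2)) = f (h, (0 : Fin 2)) := by
      intro h
      rw [hd0, show (fun g => w (g, (0 : Fin 2))) = 0 from funext hw0, map_zero, Pi.zero_apply,
        zero_add, mul_smul, hzw, smul_smul, sgn_mul_sgn, one_smul]
    refine T.mem_bdries.2 ⟨w, ⟨fun h => hw0 h ▸ Submodule.zero_mem _, hwd⟩, f - T.d w,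
      ⟨fun h => ⟨?_, ?_⟩, Submodule.sub_mem _ hfd ?_⟩, add_sub_cancel _ _⟩
    · show f (h, (0 : Fin 2)) - T.d w (h, (0 : Fin 2)) = 0
      rw [hdw, sub_self]
    · show z • (f (h, (1 : Fin 2)) - T.d w (h, (1 : Fin 2))) = 0
      have h1 := (hfA h).1
      rw [hd0] at h1
      have h2 : z • G.dA M (fun g => w (g, (1 : Fin 2))) h =
          -(G.sgn h • G.dA M (fun g => f (g, (0 : Fin 2))) h) := by
        rw [← Pi.smul_apply, ← map_smul]
        rw [show z • (fun g => w (g, (1 : Fin 2))) = fun g => G.sgn g • f (g, (0 : Fin 2)) from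
          funext hzw]
        exact G.dA_sgn_smul _ h
      rw [hd1, smul_sub, h2, sub_neg_eq_add]
      have h3 : G.sgn h • (G.dA M (fun g => f (g, (0 : Fin 2))) h +
          (G.sgn h * z) • f (h, (1 : Fin 2))) = 0 := by rw [h1, smul_zero]
      rw [smul_add, smul_smul, ← mul_assoc, sgn_mul_sgn, one_mul, add_comm] at h3
      exact h3
    · have := T.d_deg _ _ hwd
      rwa [add_sub_cancel_right] at this
  obtain ⟨hmf, hmc⟩ := T.fin'_of_subsingleton X₁ A₁ hmid
  rw [← fin'_iff_finiteHom] at hq hk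
  have f1 : T.Fin' ⊤ X₁ := P₁.fin'_iff.1 hq
  have f2 : T.Fin' A₁ ⊥ := P₂.fin'_iff.2 (Diff.fin'_shift _ hk)
  have f3 : T.Fin' X₁ ⊥ := T.fin'_mid bot_le hA₁ f2 hmf
  refine ⟨(fin'_iff_finiteHom _ k M).1 (T.fin'_mid bot_le le_top f3 f1), ?_⟩
  show T.chi ⊤ ⊥ = (G.diff _ k).chi ⊤ ⊥ - (G.diff _ k).chi ⊤ ⊥
  rw [T.chi_add bot_le le_top f3 f1, T.chi_add bot_le hA₁ f2 hmf, hmc, P₂.chi_eq, P₁.chi_eq,
    Diff.chi_shift, add_zero, neg_add_eq_sub]

end main

end FreeCx

section kchi

variable {k : Type*} [Field k] {A : Type*} [CommRing A] [IsNoetherianRing A] [Algebra k A]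

/-- The Koszul Euler characteristic is the multiplicity symbol. -/
theorem koszul_chi_eq_emult : ∀ (z : List A) (M : Type v) [AddCommGroup M] [Module A M]
    [Module k M] [IsScalarTower k A M], Good k z M →
    (FreeCx.koszul z).FiniteHom M k ∧ (FreeCx.koszul z).chi M k = emult k z M := by
  intro z
  induction z with
  | nil =>
    intro M _ _ _ _ h
    have := h.finiteDimensional
    refine ⟨fun j => inferInstance, ?_⟩
    rw [Diag.chi_of_finite]
    let e : RestrictScalars k A M ≃ₗ[k] M :=
      { RestrictScalars.addEquiv k A M with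
        map_smul' := fun c m => by simp [algebraMap_smul] }
    change (∑ g : Unit, (-1 : ℤ) ^ 0) * _ = (Module.finrank k (RestrictScalars k A M) : ℤ)
    rw [e.finrank_eq]
    simp
  | cons x zs ih =>
    intro M _ _ _ _ h
    obtain ⟨q1, q2⟩ := ih _ h.cons_quot
    obtain ⟨k1, k2⟩ := ih _ h.cons_ker
    obtain ⟨t1, t2⟩ := (FreeCx.koszul zs).tensor_koszul1 x q1 k1
    refine ⟨t1, ?_⟩
    change ((FreeCx.koszul zs).tensor (FreeCx.koszul1 x)).chi M k = _
    rw [t2, q2, k2, emult_cons]

end kchi

end Vale.Agent.P202
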