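import Vale.Agent.P202.Koszul.Dim

/-!
# P202: regular sequences (systems of parameters on Cohen-Macaulay modules, freeness)
-/

noncomputable section

namespace Vale.Agent.P202

universe u

open LinearMap RingTheory.Sequence IsLocalRing CategoryTheory Pointwise Abelian

variable {k : Type*} [Field k] {A : Type u} [CommRing A] [Algebra k A]

theorem range_lsmul_eq {M : Type*} [AddCommGroup M] [Module A M] (x : A) :
    range (lsmul A M x) = x • (⊤ : Submodule A M) := by
  ext m
  simp [Submodule.mem_smul_pointwise_iff_exists]

/-- The multiplicity symbol of a regular sequence is the colength. -/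
theorem emult_eq_finrank : ∀ (z : List A) (M : Type u) [AddCommGroup M] [Module A M],
    IsWeaklyRegular M z → emult k z M =
      Module.finrank k (RestrictScalars k A (M ⧸ (Ideal.ofList z • ⊤ : Submodule A M))) := by
  intro z
  induction z with
  | nil =>
    intro M _ _ _
    have h := emult_congr (k := k) (z := ([] : List A))
      (Submodule.quotEquivOfEqBot (Ideal.ofList ([] : List A) • ⊤ : Submodule A M) (by simp))
    exact h.symm
  | cons x zs ih =>
    intro M _ _ hreg
    rw [isWeaklyRegular_cons_iff] at hreg
    have hk : Subsingleton (ker (lsmul A M x)) :=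
      ⟨fun a b => Subtype.ext (hreg.1
        (show x • (a : M) = x • (b : M) from (a.2 : x • (a : M) = 0).trans b.2.symm))⟩
    rw [emult_cons, emult_subsingleton k zs (ker (lsmul A M x)), sub_zero,
      emult_congr (Submodule.quotEquivOfEq _ _ (range_lsmul_eq x)), ih _ hreg.2]
    exact (emult_congr (k := k) (z := ([] : List A))
      (Submodule.quotOfListConsSMulTopEquivQuotSMulTopInner M x zs)).symm

variable [IsNoetherianRing A] [IsLocalRing A]

/-- Depth is at most the dimension of every associated prime. -/
theorem length_le_dim_of_associatedPrime : ∀ (xs : List A) (M : Type u) [AddCommGroup M]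
    [Module A M] [Module.Finite A M], (∀ x ∈ xs, x ∈ maximalIdeal A) → IsWeaklyRegular M xs →
    ∀ P ∈ associatedPrimes A M, (xs.length : WithBot ℕ∞) ≤ ringKrullDim (A ⧸ P) := by
  intro xs
  induction xs with
  | nil =>
    intro M _ _ _ _ _ P hP
    have : P.IsPrime := IsAssociatedPrime.isPrime hP
    exact ringKrullDim_nonneg_of_nontrivial
  | cons x xs ih =>
    intro M _ _ _ hm hreg P hP
    rw [isWeaklyRegular_cons_iff] at hreg
    have hxm := hm x List.mem_cons_self
    obtain ⟨hPp, m, hPm⟩ := isAssociatedPrime_iff.1 hP
    have hm0 : m ≠ 0 := by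
      intro h
      apply hPp.ne_top
      rw [hPm, h, Ideal.eq_top_iff_one, Submodule.mem_colon_singleton]
      simp
    have hxP : x ∉ P := by
      intro h
      rw [hPm, Submodule.mem_colon_singleton, Submodule.mem_bot] at h
      exact hm0 (hreg.1 (h.trans (smul_zero x).symm))
    -- the elements killed by `P`
    let N : Submodule A M :=
      { carrier := {v | ∀ a ∈ P, a • v = 0}
        add_mem' := fun {v w} hv hw a ha => by rw [smul_add, hv a ha, hw a ha, add_zero]
        zero_mem' := fun a _ => smul_zero a
        smul_mem' := fun c v hv a ha => by rw [smul_comm, hv a ha, smul_zero] }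
    have hmN : m ∈ N := fun a ha => by
      rw [hPm, Submodule.mem_colon_singleton, Submodule.mem_bot] at ha
      exact ha
    let N' : Submodule A (QuotSMulTop x M) := N.map (x • (⊤ : Submodule A M)).mkQ
    have hN' : N' ≠ ⊥ := by
      intro h
      have hle : N ≤ x • N := by
        intro v hv
        have : (x • (⊤ : Submodule A M)).mkQ v = 0 := by
          have := Submodule.mem_map_of_mem (f := (x • (⊤ : Submodule A M)).mkQ) hv
          rwa [show N.map (x • (⊤ : Submodule A M)).mkQ = ⊥ from h, Submodule.mem_bot] at this
        rw [Submodule.mkQ_apply, Submodule.Quotient.mk_eq_zero,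
          Submodule.mem_smul_pointwise_iff_exists] at this
        obtain ⟨w, -, rfl⟩ := this
        refine Submodule.smul_mem_pointwise_smul _ _ _ fun a ha => hreg.1 ?_
        change x • a • w = x • (0 : M)
        rw [smul_comm, hv a ha, smul_zero]
      have h0 : N = ⊥ := by
        refine Submodule.eq_bot_of_le_smul_of_le_jacobson_bot (Ideal.span {x}) N
          (IsNoetherian.noetherian N) (by rwa [Submodule.ideal_span_singleton_smul]) ?_
        rw [Ideal.span_singleton_le_iff_mem]
        exact maximalIdeal_le_jacobson _ hxm
      rw [h0, Submodule.mem_bot] at hmN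
      exact hm0 hmN
    have : Nontrivial N' := (Submodule.nontrivial_iff_ne_bot).2 hN'
    obtain ⟨Q, hQ⟩ := associatedPrimes.nonempty A N'
    have hann : P ⊔ Ideal.span {x} ≤ Module.annihilator A N' := by
      refine sup_le ?_ ?_
      · intro a ha
        rw [Module.mem_annihilator]
        rintro ⟨-, v, hv, rfl⟩
        ext
        change a • (x • (⊤ : Submodule A M)).mkQ v = 0
        rw [← map_smul, hv a ha, map_zero]
      · rw [Ideal.span_singleton_le_iff_mem, Module.mem_annihilator]
        rintro ⟨v, hv⟩
        ext
        obtain ⟨v, rfl⟩ := Submodule.Quotient.mk_surjective _ v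
        change x • (Submodule.Quotient.mk v : QuotSMulTop x M) = 0
        rw [← Submodule.Quotient.mk_smul, Submodule.Quotient.mk_eq_zero]
        exact Submodule.smul_mem_pointwise_smul _ _ _ trivial
    have hle : P ⊔ Ideal.span {x} ≤ Q := by
      refine hann.trans ?_
      obtain ⟨-, v, hv⟩ := isAssociatedPrime_iff.1 hQ
      intro a ha
      rw [hv, Submodule.mem_colon_singleton, Submodule.mem_bot]
      exact Module.mem_annihilator.1 ha v
    have h1 := ih (QuotSMulTop x M) (fun y hy => hm y (List.mem_cons_of_mem x hy)) hreg.2 Q
      (associatedPrimes.subset_of_injective N'.injective_subtype hQ)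
    rw [List.length_cons]
    refine le_trans ?_ (sdim_quot_prime_step hxP)
    push_cast
    exact add_le_add (h1.trans (ringKrullDim_quotient_mono hle)) le_rfl

/-- A system of parameters on a module of maximal depth is a regular sequence. -/
theorem isWeaklyRegular_of_good : ∀ (ys xs : List A) (M : Type u) [AddCommGroup M]
    [Module A M] [Module.Finite A M], xs.length = ys.length →
    (∀ x ∈ xs, x ∈ maximalIdeal A) → (∀ y ∈ ys, y ∈ maximalIdeal A) →
    IsWeaklyRegular M xs → Good k ys M → IsWeaklyRegular M ys := by
  intro ys
  induction ys with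
  | nil => intro xs M _ _ _ _ _ _ _ _; exact IsWeaklyRegular.nil A M
  | cons y ys ih =>
    intro xs M _ _ _ hlen hxm hym hreg hG
    rcases subsingleton_or_nontrivial M with hM | hM
    · have : ∀ (zs : List A) (N : Type u) [AddCommGroup N] [Module A N] [Subsingleton N],
          IsWeaklyRegular N zs := by
        intro zs
        induction zs with
        | nil => intro N _ _ _; exact IsWeaklyRegular.nil A N
        | cons a as iha =>
          intro N _ _ _
          rw [isWeaklyRegular_cons_iff]
          exact ⟨fun p q _ => Subsingleton.elim p q, iha _⟩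
      exact this _ M
    have hym1 := hym y List.mem_cons_self
    have hyreg : IsSMulRegular M y := by
      rw [isSMulRegular_iff_right_eq_zero_of_smul]
      intro v hv
      by_contra hv0
      have hmem : y ∈ {r : A | ∃ v : M, v ≠ 0 ∧ r • v = 0} := ⟨v, hv0, hv⟩
      rw [← biUnion_associatedPrimes_eq_zero_divisors] at hmem
      obtain ⟨P, hP, hyP⟩ := Set.mem_iUnion₂.1 hmem
      have hd := length_le_dim_of_associatedPrime xs M hxm hreg P hP
      have hq := hG.quot
      rw [Ideal.ofList_cons] at hq
      have hannP : Module.annihilator A M ≤ P := by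
        obtain ⟨-, w, hw⟩ := isAssociatedPrime_iff.1 hP
        intro a ha
        rw [hw, Submodule.mem_colon_singleton, Submodule.mem_bot]
        exact Module.mem_annihilator.1 ha w
      have : Module.Finite k (A ⧸ (P ⊔ Ideal.ofList ys)) :=
        finite_quot_of_le (I := Module.annihilator A M ⊔ (Ideal.span {y} ⊔ Ideal.ofList ys))
          (sup_le (hannP.trans le_sup_left) (sup_le ((Ideal.span_singleton_le_iff_mem _).2
            (Ideal.mem_sup_left hyP)) le_sup_right))
      have := hd.trans (ringKrullDim_quotient_le_length (k := k) P ys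
        fun z hz => hym z (List.mem_cons_of_mem y hz))
      rw [hlen, List.length_cons] at this
      norm_cast at this
      omega
    rw [isWeaklyRegular_cons_iff]
    refine ⟨hyreg, ?_⟩
    have hlt : ∀ (N : Type u) [AddCommGroup N] [Module A N] [Module.Finite A N] [Nontrivial N],
        (maximalIdeal A) • (⊤ : Submodule A N) < ⊤ := fun N _ _ _ _ =>
      (Ne.symm (Submodule.top_ne_ideal_smul_of_le_jacobson_annihilator
        (maximalIdeal_le_jacobson _))).lt_top
    have hnt : Nontrivial (QuotSMulTop y M) := nontrivial_quotSMulTop_of_mem_maximalIdeal M hym1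
    let Mc := ModuleCat.of A M
    let Qc := ModuleCat.of A (QuotSMulTop y M)
    have t1 := ModuleCat.exists_isRegular_tfae (maximalIdeal A) (ys.length + 1) Mc (hlt M)
    have e2 : ∀ i < ys.length + 1, Subsingleton (Ext
        (ModuleCat.of A (Shrink.{u} (A ⧸ maximalIdeal A))) Mc i) := by
      refine (t1.out 3 1).1 ?_
      exact ⟨xs, by rw [hlen, List.length_cons], hxm,
        IsRegular.of_isWeaklyRegular_of_mem_maximalIdeal M hxm hreg⟩
    have e2' : ∀ i < ys.length, Subsingleton (Ext
        (ModuleCat.of A (Shrink.{u} (A ⧸ maximalIdeal A))) Qc i) := by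
      intro i hi
      have zero1 := AddCommGrpCat.isZero_of_iff_subsingleton.mpr (e2 i (by omega))
      have zero2 := AddCommGrpCat.isZero_of_iff_subsingleton.mpr (e2 (i + 1) (by omega))
      have hyreg' : IsSMulRegular Mc y := hyreg
      exact AddCommGrpCat.subsingleton_of_isZero <| ShortComplex.Exact.isZero_of_both_zeros
        ((Ext.covariant_sequence_exact₃'
          (ModuleCat.of A (Shrink.{u} (A ⧸ maximalIdeal A)))
          hyreg'.smulShortComplex_shortExact) i (i + 1) rfl)
        (zero1.eq_zero_of_src _) (zero2.eq_zero_of_tgt _)
    obtain ⟨xs', hlen', hxm', hreg'⟩ := ((ModuleCat.exists_isRegular_tfae (maximalIdeal A)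
      ys.length Qc (hlt (QuotSMulTop y M))).out 1 3).1 e2'
    exact ih xs' (QuotSMulTop y M) hlen' hxm' (fun z hz => hym z (List.mem_cons_of_mem y hz))
      hreg'.1 ((hG.cons_quot).of_surjective
        (Submodule.quotEquivOfEq _ _ (range_lsmul_eq y)).toLinearMap (LinearEquiv.surjective _))

/-- A finite module on which generators of the maximal ideal form a regular sequence is free,
with rank the colength. Here the residue field is `k`. -/
theorem free_of_isWeaklyRegular (xs : List A) (hxs : Ideal.ofList xs = maximalIdeal A)
    (hres : ∀ a : A, ∃ c : k, a - algebraMap k A c ∈ maximalIdeal A) {M : Type*} [AddCommGroup M]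
    [Module A M] [Module k M] [IsScalarTower k A M] [Module.Finite A M]
    (hreg : IsWeaklyRegular M xs) :
    Module.Free A M ∧ Module.finrank A M =
      Module.finrank k (M ⧸ (Ideal.ofList xs • ⊤ : Submodule A M)) := by
  classical
  set W := (Ideal.ofList xs • ⊤ : Submodule A M) with hW
  have hkill : ∀ a ∈ maximalIdeal A, ∀ q : M ⧸ W, a • q = 0 := by
    intro a ha q
    obtain ⟨v, rfl⟩ := Submodule.Quotient.mk_surjective _ q
    rw [← Submodule.Quotient.mk_smul, Submodule.Quotient.mk_eq_zero, hW, hxs]
    exact Submodule.smul_mem_smul ha Submodule.mem_top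
  obtain ⟨n, g, hg⟩ := Module.Finite.exists_fin (R := A) (M := M ⧸ W)
  have hgk : Submodule.span k (Set.range g) = ⊤ := by
    refine Submodule.eq_top_iff'.2 fun q => ?_
    have hq : q ∈ Submodule.span A (Set.range g) := hg ▸ Submodule.mem_top
    rw [Submodule.mem_span_range_iff_exists_fun] at hq ⊢
    obtain ⟨a, rfl⟩ := hq
    choose c hc using fun i => hres (a i)
    refine ⟨c, Finset.sum_congr rfl fun i _ => ?_⟩
    have := hkill _ (hc i) (g i)
    rwa [sub_smul, algebraMap_smul, sub_eq_zero, eq_comm] at this
  have : Module.Finite k (M ⧸ W) := ⟨⟨(Set.finite_range g).toFinset, by simpa using hgk⟩⟩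
  let v := Module.finBasis k (M ⧸ W)
  choose b hb using fun j => Submodule.Quotient.mk_surjective W (v j)
  let T := Fintype.linearCombination A b
  have hT : ∀ c, T c = ∑ j, c j • b j := fun c => rfl
  -- spanning
  have hspan : Submodule.span A (Set.range b) = ⊤ := by
    refine top_le_iff.1 (Submodule.le_of_le_smul_of_le_jacobson_bot (I := maximalIdeal A)
      Module.Finite.fg_top (maximalIdeal_le_jacobson _) ?_)
    intro u _
    have hu := v.sum_repr (Submodule.Quotient.mk u)
    rw [show u = (∑ j, algebraMap k A (v.repr (Submodule.Quotient.mk u) j) • b j) +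
      (u - ∑ j, algebraMap k A (v.repr (Submodule.Quotient.mk u) j) • b j) by abel]
    refine Submodule.add_mem_sup (Submodule.sum_mem _ fun j _ =>
      Submodule.smul_mem _ _ (Submodule.subset_span ⟨j, rfl⟩)) ?_
    rw [← hxs, ← hW, ← Submodule.Quotient.mk_eq_zero, Submodule.Quotient.mk_sub, sub_eq_zero]
    conv_lhs => rw [← hu]
    simp only [← Submodule.mkQ_apply]
    rw [map_sum]
    refine Finset.sum_congr rfl fun j _ => ?_
    rw [algebraMap_smul, ← hb j]
    exact (Submodule.Quotient.mk_smul W _ _).symm
  -- independence
  have claim : ∀ d i, i + d = xs.length → ∀ c : Fin _ → A,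
      T c ∈ (Ideal.ofList (xs.take i) • ⊤ : Submodule A M) →
      ∀ j, c j ∈ Ideal.ofList (xs.take i) := by
    intro d
    induction d with
    | zero =>
      intro i hi c hc j
      rw [show i = xs.length by omega, List.take_length] at hc ⊢
      rw [hxs]
      choose e he using fun j => hres (c j)
      have h0 : ∑ j, e j • v j = 0 := by
        have hz : (Submodule.Quotient.mk (T c) : M ⧸ W) = 0 :=
          (Submodule.Quotient.mk_eq_zero _).2 hc
        rw [hT, ← Submodule.mkQ_apply, map_sum] at hz
        rw [← hz]
        refine Finset.sum_congr rfl fun j _ => ?_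
        rw [map_smul, Submodule.mkQ_apply, hb]
        have := hkill _ (he j) (v j)
        rwa [sub_smul, algebraMap_smul, sub_eq_zero, eq_comm] at this
      have := (Fintype.linearIndependent_iff.1 v.linearIndependent) e h0 j
      have hej := he j
      rwa [this, map_zero, sub_zero] at hej
    | succ d ih =>
      intro i hi c hc
      have hil : i < xs.length := by omega
      set J := Ideal.ofList (xs.take i) with hJ
      set x := xs[i] with hx
      have htake : Ideal.ofList (xs.take (i + 1)) = J ⊔ Ideal.span {x} := by
        rw [List.take_succ_eq_append_getElem hil, Ideal.ofList_append, Ideal.ofList_singleton]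
      have hxm : x ∈ maximalIdeal A :=
        hxs ▸ Ideal.subset_span (List.getElem_mem hil)
      have hN : ∀ (N : ℕ) (c : Fin _ → A), T c ∈ J • (⊤ : Submodule A M) →
          ∀ j, c j ∈ J ⊔ Ideal.span {x ^ N} := by
        intro N
        induction N with
        | zero => intro c _ j; simp
        | succ N ihN =>
          intro c hc j
          have h1 := ih (i + 1) (by omega) c (by
            rw [htake]
            exact Submodule.smul_mono_left le_sup_left hc)
          have h2 : ∀ j, ∃ a, c j - x * a ∈ J := fun j => by
            have := h1 j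
            rw [htake] at this
            obtain ⟨p, hp, q, hq, hpq⟩ := Submodule.mem_sup.1 this
            obtain ⟨a, rfl⟩ := Ideal.mem_span_singleton'.1 hq
            exact ⟨a, by rwa [← hpq, mul_comm x a, add_sub_cancel_right]⟩
          choose a ha using h2
          have h3 : x • T a ∈ J • (⊤ : Submodule A M) := by
            have h4 : T (fun j => c j - x * a j) ∈ J • (⊤ : Submodule A M) := by
              rw [hT]
              exact Submodule.sum_mem _ fun j _ => Submodule.smul_mem_smul (ha j) Submodule.mem_top
            have : x • T a = T c - T (fun j => c j - x * a j) := by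
              simp only [hT, Finset.smul_sum, sub_smul, Finset.sum_sub_distrib, mul_smul]
              abel
            rw [this]
            exact Submodule.sub_mem _ hc h4
          have h5 : T a ∈ J • (⊤ : Submodule A M) := by
            have hr := hreg.regular_mod_prev i hil
            rw [isSMulRegular_iff_right_eq_zero_of_smul] at hr
            rw [← Submodule.Quotient.mk_eq_zero]
            exact hr _ (by rw [← Submodule.Quotient.mk_smul, Submodule.Quotient.mk_eq_zero]; exact h3)
          obtain ⟨p, hp, q, hq, hpq⟩ := Submodule.mem_sup.1 (ihN a h5 j)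
          obtain ⟨r, rfl⟩ := Ideal.mem_span_singleton'.1 hq
          rw [show c j = (c j - x * a j) + (x * p + r * x ^ (N + 1)) by
            rw [← hpq]; ring]
          exact Ideal.add_mem _ (Ideal.mem_sup_left (ha j))
            (Submodule.add_mem_sup (J.mul_mem_left x hp)
              (Ideal.mem_span_singleton'.2 ⟨r, rfl⟩))
      intro j
      have hinf := Ideal.iInf_pow_smul_eq_bot_of_isLocalRing (maximalIdeal A) (M := A ⧸ J)
        (Ideal.IsPrime.ne_top inferInstance)
      rw [← Ideal.Quotient.eq_zero_iff_mem]
      have hmem : (Ideal.Quotient.mk J (c j)) ∈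
          ⨅ N : ℕ, maximalIdeal A ^ N • (⊤ : Submodule A (A ⧸ J)) := by
        rw [Submodule.mem_iInf]
        intro N
        obtain ⟨p, hp, q, hq, hpq⟩ := Submodule.mem_sup.1 (hN N c hc j)
        obtain ⟨r, rfl⟩ := Ideal.mem_span_singleton'.1 hq
        have : Ideal.Quotient.mk J (c j) = (r * x ^ N) • (1 : A ⧸ J) := by
          rw [Algebra.smul_def, mul_one, Ideal.Quotient.algebraMap_eq, ← hpq, map_add,
            Ideal.Quotient.eq_zero_iff_mem.2 hp, zero_add]
        rw [this]
        exact Submodule.smul_mem_smul (Ideal.mul_mem_left _ _ (Ideal.pow_mem_pow hxm N))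
          Submodule.mem_top
      rw [hinf] at hmem
      exact (Submodule.mem_bot A).1 hmem
  have hli : LinearIndependent A b := by
    rw [Fintype.linearIndependent_iff]
    intro c hc j
    have := claim xs.length 0 (by omega) c (by rw [hT, hc]; exact Submodule.zero_mem _) j
    simpa using this
  let B := Module.Basis.mk hli hspan.ge
  refine ⟨Module.Free.of_basis B, ?_⟩
  rw [Module.finrank_eq_card_basis B, Fintype.card_fin]

end Vale.Agent.P202
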