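import Vale.Agent.P202.Base

/-!
# P202: cancellation of unit entries
-/

noncomputable section

namespace Vale.Agent.P202

open Matrix IsLocalRing

/-- A homotopy equivalence preserving positions identifies homology. -/
theorem Diff.nonempty_equiv {k : Type*} [CommRing k] {M N : Type*} [AddCommGroup M] [Module k M]
    [AddCommGroup N] [Module k N] (D : Diff k M) (E : Diff k N) (p : M →ₗ[k] N) (i : N →ₗ[k] M)
    (s : M →ₗ[k] M) (hp : ∀ x, p (D.d x) = E.d (p x)) (hi : ∀ y, i (E.d y) = D.d (i y))
    (hpd : ∀ (j : ℤ), ∀ x ∈ D.deg j, p x ∈ E.deg j) (hid : ∀ (j : ℤ), ∀ y ∈ E.deg j, i y ∈ D.deg j)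
    (hsd : ∀ (j : ℤ), ∀ x ∈ D.deg j, s x ∈ D.deg (j + 1))
    (hpi : ∀ y, p (i y) = y) (hip : ∀ x, x - i (p x) = D.d (s x) + s (D.d x)) (j : ℤ) :
    Nonempty (D.H ⊤ ⊥ j ≃ₗ[k] E.H ⊤ ⊥ j) := by
  have hpc : ∀ x ∈ D.cycles ⊤ ⊥ j, p x ∈ E.cycles ⊤ ⊥ j := by
    rintro x ⟨⟨-, hx⟩, hx'⟩
    refine ⟨⟨trivial, hpd j x hx⟩, ?_⟩
    simp only [SetLike.mem_coe, Submodule.mem_comap, Submodule.mem_bot] at hx' ⊢
    rw [← hp, hx', map_zero]
  have hic : ∀ y ∈ E.cycles ⊤ ⊥ j, i y ∈ D.cycles ⊤ ⊥ j := by
    rintro y ⟨⟨-, hy⟩, hy'⟩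
    refine ⟨⟨trivial, hid j y hy⟩, ?_⟩
    simp only [SetLike.mem_coe, Submodule.mem_comap, Submodule.mem_bot] at hy' ⊢
    rw [← hi, hy', map_zero]
  have hpb : (D.bdries ⊤ ⊥ j).comap (D.cycles ⊤ ⊥ j).subtype ≤
      ((E.bdries ⊤ ⊥ j).comap (E.cycles ⊤ ⊥ j).subtype).comap (p.restrict hpc) := by
    intro x hx
    simp only [Submodule.mem_comap, Diff.bdries, bot_inf_eq, sup_bot_eq, Submodule.mem_map] at hx ⊢
    obtain ⟨w, ⟨-, hw⟩, hwx⟩ := hx
    exact ⟨p w, ⟨trivial, hpd _ w hw⟩, by rw [← hp, hwx]; rfl⟩
  have hib : (E.bdries ⊤ ⊥ j).comap (E.cycles ⊤ ⊥ j).subtype ≤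
      ((D.bdries ⊤ ⊥ j).comap (D.cycles ⊤ ⊥ j).subtype).comap (i.restrict hic) := by
    intro x hx
    simp only [Submodule.mem_comap, Diff.bdries, bot_inf_eq, sup_bot_eq, Submodule.mem_map] at hx ⊢
    obtain ⟨w, ⟨-, hw⟩, hwx⟩ := hx
    exact ⟨i w, ⟨trivial, hid _ w hw⟩, by rw [← hi, hwx]; rfl⟩
  refine ⟨LinearEquiv.ofLinear (Submodule.mapQ _ _ _ hpb) (Submodule.mapQ _ _ _ hib) ?_ ?_⟩
  · refine LinearMap.ext fun q => ?_
    obtain ⟨y, rfl⟩ := Submodule.Quotient.mk_surjective _ q
    simp only [LinearMap.comp_apply, LinearMap.id_apply, Submodule.mapQ_apply]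
    congr 1
    exact Subtype.ext (hpi y)
  · refine LinearMap.ext fun q => ?_
    obtain ⟨x, rfl⟩ := Submodule.Quotient.mk_surjective _ q
    simp only [LinearMap.comp_apply, LinearMap.id_apply, Submodule.mapQ_apply]
    symm
    rw [Submodule.Quotient.eq]
    simp only [Submodule.mem_comap, Diff.bdries, bot_inf_eq, sup_bot_eq, Submodule.mem_map]
    obtain ⟨⟨-, hx⟩, hx'⟩ := x.2
    simp only [SetLike.mem_coe, Submodule.mem_comap, Submodule.mem_bot] at hx'
    exact ⟨s x, ⟨trivial, hsd j x hx⟩, by
      change _ = (x : M) - i (p x)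
      rw [hip, hx', map_zero, add_zero]⟩

namespace FreeCx

variable {A : Type*} [CommRing A] (G : FreeCx A) (h g : G.ι) (v : A)

/-- The cancelled matrix on all indices. -/
def cancelMat (a b : G.ι) : A := G.mat a b - G.mat a g * v * G.mat h b

theorem mat_self (a : G.ι) : G.mat a a = 0 := by
  by_contra ha
  have := G.mat_pos a a ha
  omega

variable (hv : G.mat h g * v = 1)

include hv in
theorem cancelMat_left (b : G.ι) : G.cancelMat h g v h b = 0 := by
  rw [cancelMat, hv, one_mul, sub_self]

include hv in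
theorem cancelMat_right (a : G.ι) : G.cancelMat h g v a g = 0 := by
  rw [cancelMat, mul_assoc, mul_comm v, hv, mul_one, sub_self]

theorem sum_split {M : Type*} [AddCommMonoid M] (hne : h ≠ g) (F : G.ι → M) :
    ∑ b, F b = (∑ b : {a : G.ι // a ≠ h ∧ a ≠ g}, F b) + (F h + F g) := by
  classical
  rw [← Finset.sum_add_sum_compl (Finset.univ.filter fun a : G.ι => a ≠ h ∧ a ≠ g)]
  congr 1
  · rw [Finset.sum_subtype (Finset.univ.filter fun a : G.ι => a ≠ h ∧ a ≠ g)
      (p := fun a => a ≠ h ∧ a ≠ g) (by simp)]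
  · have : (Finset.univ.filter fun a : G.ι => a ≠ h ∧ a ≠ g)ᶜ = {h, g} := by
      ext a
      simp only [Finset.mem_compl, Finset.mem_filter, Finset.mem_univ, true_and,
        Finset.mem_insert, Finset.mem_singleton]
      tauto
    rw [this, Finset.sum_pair hne]

include hv in
theorem pos_cancel [Nontrivial A] : G.pos g = G.pos h + 1 :=
  G.mat_pos h g fun h0 => one_ne_zero (α := A) (by rw [← hv, h0, zero_mul])

/-- The complex with the pair `(h, g)` cancelled. -/
@[reducible] def cancel [Nontrivial A] : FreeCx A where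
  ι := {a : G.ι // a ≠ h ∧ a ≠ g}
  pos a := G.pos a
  mat := Matrix.of fun a b => G.cancelMat h g v a b
  mat_pos a b hab := by
    have hab' : G.cancelMat h g v a b ≠ 0 := hab
    by_cases h1 : G.mat a b = 0
    · have h2 : G.mat a g ≠ 0 := fun h0 => hab' (by simp [cancelMat, h1, h0])
      have h3 : G.mat h b ≠ 0 := fun h0 => hab' (by simp [cancelMat, h1, h0])
      have := G.mat_pos a g h2
      have := G.mat_pos h b h3
      have := G.pos_cancel h g v hv
      omega
    · exact G.mat_pos a b h1
  sq := by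
    ext a c
    rw [Matrix.mul_apply, Matrix.zero_apply]
    have hne : h ≠ g := fun e => by
      have := G.pos_cancel h g v hv
      rw [e] at this
      omega
    have hsq : ∀ x y, ∑ b, G.mat x b * G.mat b y = 0 := fun x y => by
      simpa [Matrix.mul_apply] using congrFun (congrFun G.sq x) y
    have hall : ∑ b, G.cancelMat h g v a b * G.cancelMat h g v b c = 0 := by
      have : ∀ b, G.cancelMat h g v a b * G.cancelMat h g v b c =
          G.mat a b * G.mat b c - (G.mat a b * G.mat b g) * (v * G.mat h c) -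
          G.mat a g * v * (G.mat h b * G.mat b c) +
          G.mat a g * v * (G.mat h b * G.mat b g) * (v * G.mat h c) := fun b => by
        simp only [cancelMat]; ring
      simp only [this, Finset.sum_add_distrib, Finset.sum_sub_distrib, ← Finset.mul_sum,
        ← Finset.sum_mul, hsq]
      ring
    rw [G.sum_split h g hne, G.cancelMat_left h g v hv, G.cancelMat_right h g v hv] at hall
    simpa using hall

theorem cancel_card [Nontrivial A] : Fintype.card (G.cancel h g v hv).ι < Fintype.card G.ι :=
  Fintype.card_subtype_lt (x := h) fun hh => hh.1 rfl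

theorem cancel_homology [Nontrivial A] (M : Type*) [AddCommGroup M] [Module A M] (k : Type*)
    [CommRing k] [Algebra k A] [Module k M] [IsScalarTower k A M] (j : ℤ) :
    Nonempty ((G.diff M k).H ⊤ ⊥ j ≃ₗ[k] ((G.cancel h g v hv).diff M k).H ⊤ ⊥ j) := by
  classical
  have hpos := G.pos_cancel h g v hv
  have hne : h ≠ g := fun e => by rw [e] at hpos; omega
  have hsq : ∀ x y, ∑ b, G.mat x b * G.mat b y = 0 := fun x y => by
    simpa [Matrix.mul_apply] using congrFun (congrFun G.sq x) y
  let p : (G.ι → M) →ₗ[k] ((G.cancel h g v hv).ι → M) :=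
    { toFun := fun x a => x a.1 - (G.mat a.1 g * v) • x h
      map_add' := fun x y => by funext a; simp [smul_add]; abel
      map_smul' := fun c x => by funext a; simp [smul_sub, smul_comm c] }
  let i : ((G.cancel h g v hv).ι → M) →ₗ[k] (G.ι → M) :=
    { toFun := fun f b => if hb : b ≠ h ∧ b ≠ g then f ⟨b, hb⟩ else if b = g then
        -(v • ∑ c : {a : G.ι // a ≠ h ∧ a ≠ g}, G.mat h c.1 • f c) else 0
      map_add' := fun x y => by
        funext b
        by_cases hb : b ≠ h ∧ b ≠ g
        · simp [dif_pos hb]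
        · by_cases hg : b = g
          · simp only [Pi.add_apply, dif_neg hb, if_pos hg, smul_add, Finset.sum_add_distrib,
              neg_add]
          · simp [dif_neg hb, if_neg hg]
      map_smul' := fun c x => by
        funext b
        by_cases hb : b ≠ h ∧ b ≠ g
        · simp [dif_pos hb]
        · by_cases hg : b = g
          · simp only [Pi.smul_apply, dif_neg hb, if_pos hg, RingHom.id_apply, smul_neg,
              Finset.smul_sum]
            congr 1
            refine Finset.sum_congr rfl fun c' _ => ?_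
            rw [smul_comm c, smul_comm c]
          · simp [dif_neg hb, if_neg hg] }
  let s : (G.ι → M) →ₗ[k] (G.ι → M) :=
    { toFun := fun x b => if b = g then v • x h else 0
      map_add' := fun x y => by funext b; by_cases hb : b = g <;> simp [hb]
      map_smul' := fun c x => by funext b; by_cases hb : b = g <;> simp [hb, smul_comm c] }
  have iv : ∀ f (a : {a : G.ι // a ≠ h ∧ a ≠ g}), i f a.1 = f a := fun f a => dif_pos a.2
  have ih : ∀ f, i f h = 0 := fun f => by simp [i, hne]
  have ig : ∀ f, i f g = -(v • ∑ c : {a : G.ι // a ≠ h ∧ a ≠ g}, G.mat h c.1 • f c) :=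
    fun f => by simp [i]
  have dd : ∀ (H : FreeCx A) (x : H.ι → M) (a : H.ι),
      (H.diff M k).d x a = ∑ b, H.mat a b • x b := fun H x a => rfl
  have dc : ∀ (x : (G.cancel h g v hv).ι → M) a, ((G.cancel h g v hv).diff M k).d x a =
      ∑ b : {a : G.ι // a ≠ h ∧ a ≠ g}, G.cancelMat h g v a.1 b.1 • x b := fun x a => rfl
  refine Diff.nonempty_equiv _ _ p i s ?_ ?_ ?_ ?_ ?_ ?_ ?_ j
  · intro x
    funext a
    change (G.diff M k).d x a.1 - (G.mat a.1 g * v) • (G.diff M k).d x h = _
    rw [dc, dd, dd, Finset.smul_sum, ← Finset.sum_sub_distrib]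
    have e1 : ∀ b, G.mat a.1 b • x b - (G.mat a.1 g * v) • G.mat h b • x b =
        G.cancelMat h g v a.1 b • x b := fun b => by rw [smul_smul, ← sub_smul]; rfl
    simp only [e1]
    rw [G.sum_split h g hne, G.cancelMat_right h g v hv, zero_smul, add_zero]
    change _ = ∑ b : {a : G.ι // a ≠ h ∧ a ≠ g},
      G.cancelMat h g v a.1 b.1 • (x b.1 - (G.mat b.1 g * v) • x h)
    simp only [smul_sub, smul_smul, Finset.sum_sub_distrib, ← Finset.sum_smul]
    rw [sub_eq_add_neg, ← neg_smul]
    congr 2
    have hall : ∑ b, G.cancelMat h g v a.1 b * (G.mat b g * v) = 0 := by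
      have : ∀ b, G.cancelMat h g v a.1 b * (G.mat b g * v) = (G.mat a.1 b * G.mat b g) * v -
          G.mat a.1 g * v * ((G.mat h b * G.mat b g) * v) := fun b => by
        simp only [cancelMat]; ring
      simp only [this, Finset.sum_sub_distrib, ← Finset.mul_sum, ← Finset.sum_mul, hsq]
      ring
    rw [G.sum_split h g hne, G.cancelMat_right h g v hv, zero_mul, add_zero, hv, mul_one] at hall
    linear_combination hall
  · intro f
    funext b
    rw [dd, G.sum_split h g hne]
    simp only [iv, ih, ig, smul_zero, zero_add, smul_neg]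
    simp only [Finset.smul_sum, smul_smul, ← sub_eq_add_neg, ← Finset.sum_sub_distrib, ← sub_smul]
    by_cases hb : b ≠ h ∧ b ≠ g
    · rw [show i (((G.cancel h g v hv).diff M k).d f) b =
        ((G.cancel h g v hv).diff M k).d f ⟨b, hb⟩ from dif_pos hb, dc]
      refine Finset.sum_congr rfl fun c _ => ?_
      rw [cancelMat, mul_assoc (G.mat b g)]
    · by_cases hg : b = g
      · subst hg
        rw [ig]
        simp only [dc, Finset.smul_sum, smul_smul, ← Finset.sum_neg_distrib, ← neg_smul]
        rw [Finset.sum_comm]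
        refine Finset.sum_congr rfl fun c _ => ?_
        rw [← Finset.sum_smul]
        congr 1
        have hall : ∑ a, G.mat h a * G.cancelMat h b v a c.1 = 0 := by
          have : ∀ a, G.mat h a * G.cancelMat h b v a c.1 = G.mat h a * G.mat a c.1 -
              (G.mat h a * G.mat a b) * (v * G.mat h c.1) := fun a => by
            simp only [cancelMat]; ring
          simp only [this, Finset.sum_sub_distrib, ← Finset.sum_mul, hsq]
          ring
        rw [G.sum_split h b hne, G.cancelMat_left h b v hv, mul_zero, zero_add] at hall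
        have e2 : G.cancelMat h b v b c.1 = G.mat b c.1 := by
          rw [cancelMat, G.mat_self, zero_mul, zero_mul, sub_zero]
        rw [e2] at hall
        rw [G.mat_self b, zero_mul, sub_zero, Finset.sum_neg_distrib, ← Finset.mul_sum]
        linear_combination -v * hall + G.mat b c.1 * hv
      · have hbh : b = h := by tauto
        subst hbh
        rw [ih]
        symm
        refine Finset.sum_eq_zero fun c _ => ?_
        rw [← mul_assoc, hv, one_mul, sub_self, zero_smul]
  · intro j x hx a ha
    change x a.1 - (G.mat a.1 g * v) • x h = 0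
    rw [hx a.1 ha, zero_sub, neg_eq_zero]
    by_cases hm : G.mat a.1 g = 0
    · simp [hm]
    · have := G.mat_pos _ _ hm
      have ha' : (G.pos a.1 : ℤ) ≠ j := ha
      rw [hx h (by omega), smul_zero]
  · intro j f hf b hb
    by_cases hb' : b ≠ h ∧ b ≠ g
    · rw [show i f b = f ⟨b, hb'⟩ from dif_pos hb']
      exact hf ⟨b, hb'⟩ hb
    · by_cases hg : b = g
      · subst hg
        rw [ig, neg_eq_zero]
        refine smul_eq_zero_of_right _ (Finset.sum_eq_zero fun c _ => ?_)
        by_cases hm : G.mat h c.1 = 0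
        · simp [hm]
        · have := G.mat_pos _ _ hm
          have hc : (G.pos c.1 : ℤ) ≠ j := by omega
          rw [hf c hc, smul_zero]
      · have hbh : b = h := by tauto
        rw [hbh, ih]
  · intro j x hx b hb
    change (if b = g then v • x h else 0) = 0
    split_ifs with hg
    · subst hg
      rw [hx h (by omega), smul_zero]
    · rfl
  · intro f
    funext a
    change i f a.1 - (G.mat a.1 g * v) • i f h = f a
    rw [iv, ih, smul_zero, sub_zero]
  · intro x
    funext b
    have es : ∀ y : G.ι → M, ∀ b, s y b = if b = g then v • y h else 0 := fun y b => rfl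
    have edS : (G.diff M k).d (s x) b = (G.mat b g * v) • x h := by
      rw [dd, Finset.sum_eq_single g (fun c _ hc => by simp [es, hc]) (by simp), es, if_pos rfl,
        smul_smul]
    rw [Pi.add_apply, Pi.sub_apply, edS, es]
    by_cases hb : b ≠ h ∧ b ≠ g
    · rw [if_neg hb.2, add_zero, show i (p x) b = p x ⟨b, hb⟩ from dif_pos hb]
      change x b - (x b - (G.mat b g * v) • x h) = _
      abel
    · by_cases hg : b = g
      · subst hg
        rw [if_pos rfl, ig, G.mat_self b, zero_mul, zero_smul, zero_add, sub_neg_eq_add, dd,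
          G.sum_split h b hne, G.mat_self h, zero_smul, zero_add]
        change x b + v • (∑ c : {a : G.ι // a ≠ h ∧ a ≠ b},
          G.mat h c.1 • (x c.1 - (G.mat c.1 b * v) • x h)) = _
        simp only [smul_sub, Finset.sum_sub_distrib, smul_smul, ← Finset.sum_smul, smul_add]
        have hall := hsq h b
        rw [G.sum_split h b hne, G.mat_self h, zero_mul, zero_add, G.mat_self b, mul_zero,
          add_zero] at hall
        have e3 : ∑ c : {a : G.ι // a ≠ h ∧ a ≠ b}, G.mat h c.1 * (G.mat c.1 b * v) = 0 := by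
          simp only [← mul_assoc, ← Finset.sum_mul, hall, zero_mul]
        rw [e3, mul_zero, zero_smul, sub_zero, mul_comm v (G.mat h b), hv, one_smul]
        abel
      · have hbh : b = h := by tauto
        subst hbh
        rw [ih, if_neg hne, hv, one_smul, sub_zero, add_zero]

/-- A minimal complex with the same homology. -/
theorem exists_minimal {R : Type*} [CommRing R] [IsLocalRing R] : ∀ (n : ℕ) (G : FreeCx R),
    Fintype.card G.ι ≤ n → ∃ G' : FreeCx R, (∀ L, G.LengthLE L → G'.LengthLE L) ∧
      G'.EntriesIn (maximalIdeal R) ∧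
      ∀ (k : Type*) [CommRing k] [Algebra k R] (M : Type*) [AddCommGroup M] [Module R M]
        [Module k M] [IsScalarTower k R M] (j : ℤ),
        Nonempty ((G.diff M k).H ⊤ ⊥ j ≃ₗ[k] (G'.diff M k).H ⊤ ⊥ j) := by
  intro n
  induction n with
  | zero =>
    intro G hG
    have : IsEmpty G.ι := Fintype.card_eq_zero_iff.1 (Nat.le_zero.1 hG)
    exact ⟨G, fun _ h => h, fun a => isEmptyElim a,
      fun k _ _ M _ _ _ _ j => ⟨LinearEquiv.refl k _⟩⟩
  | succ n ih =>
    intro G hG
    by_cases h : G.EntriesIn (maximalIdeal R)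
    · exact ⟨G, fun _ h => h, h, fun k _ _ M _ _ _ _ j => ⟨LinearEquiv.refl k _⟩⟩
    · simp only [EntriesIn, not_forall] at h
      obtain ⟨a, b, hab⟩ := h
      rw [IsLocalRing.mem_maximalIdeal, mem_nonunits_iff, not_not] at hab
      obtain ⟨w, hw⟩ := hab.exists_right_inv
      obtain ⟨G', h1, h2, h3⟩ := ih (G.cancel a b w hw)
        (by have := G.cancel_card a b w hw; omega)
      refine ⟨G', fun L hL => h1 L fun c => hL c.1, h2, fun k _ _ M _ _ _ _ j => ?_⟩
      obtain ⟨e1⟩ := G.cancel_homology a b w hw M k j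
      obtain ⟨e2⟩ := h3 k M j
      exact ⟨e1.trans e2⟩

theorem chi_congr_homology {G G' : FreeCx A} {M : Type*} [AddCommGroup M] [Module A M] {k : Type*}
    [CommRing k] [Algebra k A] [Module k M] [IsScalarTower k A M]
    (e : ∀ j, Nonempty ((G.diff M k).H ⊤ ⊥ j ≃ₗ[k] (G'.diff M k).H ⊤ ⊥ j)) :
    G.chi M k = G'.chi M k := by
  unfold FreeCx.chi Diff.chi Diff.betti
  refine finsum_congr fun j => ?_
  obtain ⟨f⟩ := e j
  rw [f.finrank_eq]

theorem finiteHom_congr_homology {G G' : FreeCx A} {M : Type*} [AddCommGroup M] [Module A M] {k : Type*}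
    [CommRing k] [Algebra k A] [Module k M] [IsScalarTower k A M]
    (e : ∀ j, Nonempty ((G.diff M k).H ⊤ ⊥ j ≃ₗ[k] (G'.diff M k).H ⊤ ⊥ j))
    (hG : G.FiniteHom M k) : G'.FiniteHom M k := fun j => by
  have := hG j
  obtain ⟨f⟩ := e j
  exact Module.Finite.equiv f

/-- On the residue field, a minimal complex has zero differential. -/
theorem homDim_zero_of_entriesIn {R : Type*} [CommRing R] [IsLocalRing R] (G : FreeCx R)
    (hG : G.EntriesIn (maximalIdeal R)) (k : Type*) [Field k] [Algebra k R]
    [Module.Finite k (ResidueField R)] :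
    G.homDim (ResidueField R) k 0 = G.rank 0 * Module.finrank k (ResidueField R) := by
  classical
  have hd : ∀ x : G.ι → ResidueField R, (G.diff (ResidueField R) k).d x = 0 := by
    intro x
    funext a
    change ∑ b, G.mat a b • x b = 0
    refine Finset.sum_eq_zero fun b _ => ?_
    rw [Algebra.smul_def, ResidueField.algebraMap_eq, (residue_eq_zero_iff _).2 (hG a b),
      zero_mul]
  have hb : (G.diff (ResidueField R) k).bdries ⊤ ⊥ 0 = ⊥ := by
    simp only [Diff.bdries, bot_inf_eq, sup_bot_eq, eq_bot_iff]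
    rintro _ ⟨w, -, rfl⟩
    exact hd w
  let e : (G.diff (ResidueField R) k).H ⊤ ⊥ 0 ≃ₗ[k]
      ({a : G.ι // G.pos a = 0} → ResidueField R) :=
    (Submodule.quotEquivOfEqBot _ (by rw [hb, Submodule.comap_bot, Submodule.ker_subtype])).trans
      { toFun := fun x a => x.1 a.1
        map_add' := fun _ _ => rfl
        map_smul' := fun _ _ => rfl
        invFun := fun f => ⟨fun a => if ha : G.pos a = 0 then f ⟨a, ha⟩ else 0,
          ⟨trivial, fun a ha => dif_neg (by exact_mod_cast ha)⟩, by simp [hd]⟩
        left_inv := fun x => by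
          ext a
          by_cases ha : G.pos a = 0
          · simp [ha]
          · simp [ha, x.2.1.2 a (by exact_mod_cast ha)]
        right_inv := fun f => by funext a; simp [a.2] }
  unfold FreeCx.homDim Diff.betti
  rw [e.finrank_eq, Module.finrank_pi_fintype k, Finset.sum_const, Finset.card_univ,
    Fintype.card_subtype, smul_eq_mul]
  rfl

end FreeCx

end Vale.Agent.P202
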