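import Vale.Agent.P202.Koszul.Recursion
import Vale.Agent.P202.Koszul.Scaling
import Vale.Agent.P202.Koszul.Prune
import Vale.Agent.P202.Diag.Transport

/-!
# P202: from complexes over `S` to complexes over `R`

`restrict` writes a complex over `S` in a basis of `S` over `R`; mapping it through an iterate of
Frobenius multiplies the Euler characteristic of a Koszul complex by `q ^ d`.
-/

noncomputable section

namespace Vale.Agent.P202

universe u v

open TensorProduct

namespace Diff

/-- Transport along a semilinear bijection. -/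
theorem semilinear_transport {k k' : Type*} [Field k] [Field k'] {M N : Type v} [AddCommGroup M]
    [Module k M] [AddCommGroup N] [Module k' N] (D : Diff k M) (D' : Diff k' N) (σ : k ≃+* k')
    (φ : M ≃+ N) (hs : ∀ (c : k) x, φ (c • x) = σ c • φ x) (hd : ∀ x, φ (D.d x) = D'.d (φ x))
    (hdeg : ∀ j x, φ x ∈ D'.deg j ↔ x ∈ D.deg j) (j : ℤ) :
    (Module.Finite k (D.H ⊤ ⊥ j) ↔ Module.Finite k' (D'.H ⊤ ⊥ j)) ∧
      D'.betti ⊤ ⊥ j = D.betti ⊤ ⊥ j := by
  have hcy : ∀ x, x ∈ D.cycles ⊤ ⊥ j ↔ φ x ∈ D'.cycles ⊤ ⊥ j := fun x => by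
    rw [mem_cycles, mem_cycles, hdeg, ← hd, Submodule.mem_bot, Submodule.mem_bot,
      AddEquiv.map_eq_zero_iff]
    simp
  let c : D.cycles ⊤ ⊥ j ≃+ D'.cycles ⊤ ⊥ j :=
    { toFun := fun x => ⟨φ x, (hcy x).1 x.2⟩
      invFun := fun y => ⟨φ.symm y, (hcy _).2 (by simp)⟩
      left_inv := fun x => Subtype.ext (φ.symm_apply_apply _)
      right_inv := fun y => Subtype.ext (φ.apply_symm_apply _)
      map_add' := fun x y => Subtype.ext (φ.map_add _ _) }
  have hbd : ∀ x, φ x ∈ D'.bdries ⊤ ⊥ j ↔ x ∈ D.bdries ⊤ ⊥ j := fun x => by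
    simp only [bdries, top_inf_eq, bot_inf_eq, sup_bot_eq, Submodule.mem_map]
    constructor
    · rintro ⟨w', hw, hw'⟩
      obtain ⟨w, rfl⟩ := φ.surjective w'
      rw [← hd] at hw'
      exact ⟨w, (hdeg _ _).1 hw, φ.injective hw'⟩
    · rintro ⟨w, hw, rfl⟩
      exact ⟨φ w, (hdeg _ _).2 hw, (hd w).symm⟩
  have hq : AddSubgroup.map c.toAddMonoidHom
      ((D.bdries ⊤ ⊥ j).comap (D.cycles ⊤ ⊥ j).subtype).toAddSubgroup =
      ((D'.bdries ⊤ ⊥ j).comap (D'.cycles ⊤ ⊥ j).subtype).toAddSubgroup := by
    ext y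
    obtain ⟨x, rfl⟩ := c.surjective y
    simp only [AddSubgroup.mem_map, Submodule.mem_toAddSubgroup, Submodule.mem_comap]
    constructor
    · rintro ⟨x', hx', he⟩
      obtain rfl := c.injective he
      exact (hbd _).2 hx'
    · exact fun h => ⟨x, (hbd _).1 h, rfl⟩
  let e : D.H ⊤ ⊥ j ≃+ D'.H ⊤ ⊥ j := QuotientAddGroup.congr _ _ c hq
  have hes : ∀ (a : k) (ξ : D.H ⊤ ⊥ j), e (a • ξ) = σ a • e ξ := by
    intro a ξ
    obtain ⟨x, rfl⟩ := Submodule.Quotient.mk_surjective _ ξ
    change Submodule.Quotient.mk (c (a • x)) = σ a • Submodule.Quotient.mk (c x)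
    rw [← Submodule.Quotient.mk_smul]
    exact congrArg Submodule.Quotient.mk (Subtype.ext (hs a x))
  have hr := rank_eq_of_equiv_equiv (σ : k → k') e σ.bijective hes
  refine ⟨?_, ?_⟩
  · rw [← Module.rank_lt_aleph0_iff, ← Module.rank_lt_aleph0_iff, hr]
  · simp [betti, Module.finrank, hr]

end Diff

namespace FreeCx

section restrict

variable {R S : Type*} [CommRing R] [CommRing S] [Algebra R S] {r : ℕ}
  (G : FreeCx S) (b : Module.Basis (Fin r) R S)

/-- A complex over `S`, written over `R` in the basis `b`. -/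
@[reducible] def restrict : FreeCx R where
  ι := G.ι × Fin r
  pos p := G.pos p.1
  mat := Matrix.of fun p q => Algebra.leftMulMatrix b (G.mat p.1 q.1) p.2 q.2
  mat_pos h g hne := G.mat_pos h.1 g.1 fun h0 => hne (by simp [h0])
  sq := by
    ext p q
    rw [Matrix.mul_apply, Matrix.zero_apply, Fintype.sum_prod_type]
    simp only [Matrix.of_apply]
    calc ∑ c, ∑ l, Algebra.leftMulMatrix b (G.mat p.1 c) p.2 l *
          Algebra.leftMulMatrix b (G.mat c q.1) l q.2
        = ∑ c, Algebra.leftMulMatrix b (G.mat p.1 c * G.mat c q.1) p.2 q.2 := by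
          refine Finset.sum_congr rfl fun c _ => ?_
          rw [map_mul, Matrix.mul_apply]
      _ = Algebra.leftMulMatrix b ((G.mat * G.mat) p.1 q.1) p.2 q.2 := by
          rw [Matrix.mul_apply, map_sum, Matrix.sum_apply]
      _ = 0 := by rw [G.sq]; simp

theorem restrict_lengthLE {L : ℕ} (h : G.LengthLE L) : (G.restrict b).LengthLE L := fun p => h p.1

theorem restrict_rank (i : ℕ) : (G.restrict b).rank i = G.rank i * r := by
  show (Finset.univ.filter fun p : G.ι × Fin r => G.pos p.1 = i).card =
    (Finset.univ.filter fun g => G.pos g = i).card * r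
  rw [show (Finset.univ.filter fun p : G.ι × Fin r => G.pos p.1 = i) =
    (Finset.univ.filter fun g => G.pos g = i) ×ˢ (Finset.univ : Finset (Fin r)) by ext; simp]
  simp [Finset.card_product]

theorem restrict_entriesIn {I : Ideal R} (h : G.EntriesIn (I.map (algebraMap R S))) :
    (G.restrict b).EntriesIn I := by
  intro p q
  have key : ∀ s ∈ I.map (algebraMap R S), ∀ t : S, ∀ i, b.repr (s * t) i ∈ I := by
    intro s hs
    rw [Ideal.map] at hs
    induction hs using Submodule.span_induction with
    | mem x hx =>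
      obtain ⟨a, ha, rfl⟩ := hx
      intro t i
      rw [← Algebra.smul_def, map_smul, Finsupp.smul_apply, smul_eq_mul]
      exact I.mul_mem_right _ ha
    | zero => intro t i; simp
    | add x y _ _ hx hy =>
      intro t i
      rw [add_mul, map_add, Finsupp.add_apply]
      exact I.add_mem (hx t i) (hy t i)
    | smul c x _ hx =>
      intro t i
      rw [smul_eq_mul, mul_assoc, mul_left_comm]
      exact hx (c * t) i
  show Algebra.leftMulMatrix b _ _ _ ∈ I
  rw [Algebra.leftMulMatrix_eq_repr_mul]
  exact key _ (h _ _) _ _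

variable {M : Type*} [AddCommGroup M] [Module R M]

/-- Coordinates of `S ⊗ M` in the basis `b`, at every basis vector of `G`. -/
def restrictEquiv : (G.ι × Fin r → M) ≃ₗ[R] (G.ι → S ⊗[R] M) :=
  (LinearEquiv.curry R M G.ι (Fin r)).trans (LinearEquiv.piCongrRight fun _ =>
    ((TensorProduct.equivFinsuppOfBasisLeft b).trans
      (Finsupp.linearEquivFunOnFinite R M (Fin r))).symm)

theorem restrictEquiv_apply (x : G.ι × Fin r → M) (g : G.ι) :
    G.restrictEquiv b x g = ∑ i, b i ⊗ₜ[R] x (g, i) := by
  simp only [restrictEquiv, LinearEquiv.trans_apply, LinearEquiv.piCongrRight_apply,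
    LinearEquiv.symm_trans_apply, TensorProduct.equivFinsuppOfBasisLeft_symm_apply]
  rw [Finsupp.sum_fintype _ _ (fun i => TensorProduct.tmul_zero _ _)]
  rfl

theorem restrictEquiv_d (x : G.ι × Fin r → M) :
    G.restrictEquiv b ((G.restrict b).dA M x) = G.dA (S ⊗[R] M) (G.restrictEquiv b x) := by
  funext h
  rw [restrictEquiv_apply, dA_apply]
  simp only [restrictEquiv_apply, Finset.smul_sum, TensorProduct.smul_tmul', smul_eq_mul]
  show ∑ i, b i ⊗ₜ[R] (∑ q : G.ι × Fin r,
    Algebra.leftMulMatrix b (G.mat h q.1) i q.2 • x q) = _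
  simp only [Fintype.sum_prod_type, TensorProduct.tmul_sum, TensorProduct.tmul_smul,
    TensorProduct.smul_tmul']
  rw [Finset.sum_comm]
  refine Finset.sum_congr rfl fun g _ => ?_
  rw [Finset.sum_comm]
  refine Finset.sum_congr rfl fun i _ => ?_
  rw [← TensorProduct.sum_tmul]
  congr 1
  conv_rhs => rw [← b.sum_repr (G.mat h g * b i)]
  simp [Algebra.leftMulMatrix_eq_repr_mul]

variable {k : Type*} [Field k] [Algebra k R] [Algebra k S] [IsScalarTower k R S]
  [Module k M] [IsScalarTower k R M]

/-- Homology of the restricted complex on `M` and of the complex on `S ⊗ M`. -/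
def restrictHomEquiv (j : ℤ) :
    ((G.restrict b).diff M k).H ⊤ ⊥ j ≃ₗ[k] (G.diff (S ⊗[R] M) k).H ⊤ ⊥ j :=
  have : IsScalarTower k R (S ⊗[R] M) := IsScalarTower.of_algebraMap_smul fun c t => by
    induction t with
    | zero => rw [smul_zero, smul_zero]
    | add a b ha hb => rw [smul_add, smul_add, ha, hb]
    | tmul s m => rw [TensorProduct.smul_tmul', TensorProduct.smul_tmul', algebraMap_smul]
  Diag.homologyEquiv ((G.restrict b).diff M k) (G.diff (S ⊗[R] M) k)
    ((G.restrictEquiv b).restrictScalars k) (G.restrictEquiv_d b) (fun j x => by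
      constructor
      · rintro h ⟨g, i⟩ hg
        have h0 : G.restrictEquiv b x g = 0 := h g hg
        have e : (TensorProduct.equivFinsuppOfBasisLeft b).trans
            (Finsupp.linearEquivFunOnFinite R M (Fin r)) (G.restrictEquiv b x g) =
              fun i => x (g, i) :=
          LinearEquiv.apply_symm_apply _ _
        rw [h0, map_zero] at e
        exact (congrFun e i).symm
      · intro h g hg
        show G.restrictEquiv b x g = 0
        rw [restrictEquiv_apply]
        refine Finset.sum_eq_zero fun i _ => ?_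
        have hz : x (g, i) = 0 := h (g, i) hg
        rw [hz, TensorProduct.tmul_zero]) j

theorem restrict_homDim (j : ℤ) :
    G.homDim (S ⊗[R] M) k j = (G.restrict b).homDim M k j :=
  (G.restrictHomEquiv b j).finrank_eq.symm

/-- The restricted complex on `M` is the complex on `S ⊗ M`. -/
theorem restrict_hom :
    ((G.restrict b).FiniteHom M k ↔ G.FiniteHom (S ⊗[R] M) k) ∧
      (G.restrict b).chi M k = G.chi (S ⊗[R] M) k := by
  refine ⟨⟨fun hf j => ?_, fun hf j => ?_⟩, ?_⟩
  · have := hf j
    exact Module.Finite.equiv (G.restrictHomEquiv b j)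
  · have := hf j
    exact Module.Finite.equiv (G.restrictHomEquiv b j).symm
  · simp only [FreeCx.chi, Diff.chi, Diff.betti,
      fun j => (G.restrictHomEquiv b (M := M) (k := k) j).finrank_eq]

omit [Module R M] [Module k M] [IsScalarTower k R M] in
/-- The restricted complex on `R` is the complex on `S`. -/
theorem restrict_hom_self :
    ((G.restrict b).FiniteHom R k ↔ G.FiniteHom S k) ∧
      (G.restrict b).chi R k = G.chi S k := by
  obtain ⟨h1, h2⟩ := G.restrict_hom b (M := R) (k := k)
  exact ⟨h1.trans (G.finiteHom_congr k (TensorProduct.AlgebraTensorModule.rid R S S)),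
    h2.trans (G.chi_congr k (TensorProduct.AlgebraTensorModule.rid R S S))⟩

end restrict

end FreeCx

namespace Pull

variable {R : Type u} [CommRing R] {k : Type*} [CommRing k] [Algebra k R] (F : R →+* R)
  {M : Type u} [AddCommGroup M] [Module R M]

instance : Module k (Pull F M) := Module.compHom _ (algebraMap k R)

instance : IsScalarTower k R (Pull F M) := IsScalarTower.of_algebraMap_smul fun _ _ => rfl

end Pull

section frobenius

variable (p : ℕ) [Fact p.Prime] {k : Type*} [Field k] [CharP k p] [PerfectRing k p]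
  {R : Type u} [CommRing R] [Algebra k R] [CharP R p] (e : ℕ)

/-- A complex mapped through Frobenius is the complex on the pulled-back module. -/
theorem FreeCx.map_frobenius_hom (G : FreeCx R) (M : Type u) [AddCommGroup M] [Module R M]
    [Module k M] [IsScalarTower k R M] :
    ((G.map (iterateFrobenius R p e)).FiniteHom M k ↔
        G.FiniteHom (Pull (iterateFrobenius R p e) M) k) ∧
      (G.map (iterateFrobenius R p e)).chi M k = G.chi (Pull (iterateFrobenius R p e) M) k := by
  set F := iterateFrobenius R p e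
  let D : Diff k (G.ι → Pull F M) := G.diff (Pull F M) k
  let D' : Diff k (G.ι → M) := (G.map F).diff M k
  let φ : (G.ι → Pull F M) ≃+ (G.ι → M) := AddEquiv.piCongrRight fun _ => (Pull.of F).symm
  have hs : ∀ (c : k) x, φ (c • x) = iterateFrobeniusEquiv k p e c • φ x := fun c x => by
    funext g
    show F (algebraMap k R c) • (Pull.of F).symm (x g) =
      iterateFrobeniusEquiv k p e c • (Pull.of F).symm (x g)
    rw [← algebraMap_smul (M := M) R (iterateFrobeniusEquiv k p e c), iterateFrobeniusEquiv_def, map_pow]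
    rfl
  have hd : ∀ x, φ (D.d x) = D'.d (φ x) := fun x => by
    funext h
    show (Pull.of F).symm (∑ g, G.mat h g • x g) = ∑ g, F (G.mat h g) • (Pull.of F).symm (x g)
    rw [map_sum]
    rfl
  have hdeg : ∀ j x, φ x ∈ D'.deg j ↔ x ∈ D.deg j := fun j x => Iff.rfl
  have h := fun j => Diff.semilinear_transport D D' (iterateFrobeniusEquiv k p e) φ hs hd hdeg j
  refine ⟨⟨fun hf j => (h j).1.2 (hf j), fun hf j => (h j).1.1 (hf j)⟩, ?_⟩
  show D'.chi ⊤ ⊥ = D.chi ⊤ ⊥
  simp only [Diff.chi, (h _).2]

variable [IsNoetherianRing R] [IsLocalRing R] {S : Type u} [CommRing S] [Algebra R S] [Algebra k S]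
  [IsScalarTower k R S] [Module.Finite R S] [Module.Flat R S] {x : List R} {y : List S} {r : ℕ}

/-- The Frobenius twist of a complex with the homology of the Koszul complex of `y`, written
over `R`, on every finite module. -/
theorem restrict_map_frobenius (hF : (iterateFrobenius R p e).Finite)
    [Module.Finite k (R ⧸ Ideal.ofList x)] [Module.Finite k (S ⧸ Ideal.ofList y)]
    (hx : ∀ a ∈ x, a ∈ IsLocalRing.maximalIdeal R) (hlen : y.length = x.length)
    (b : Module.Basis (Fin r) R S) (G : FreeCx R)
    (hG : ∀ (M : Type u) [AddCommGroup M] [Module R M] [Module k M] [IsScalarTower k R M]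
      (j : ℤ), Nonempty ((((FreeCx.koszul y).restrict b).diff M k).H ⊤ ⊥ j ≃ₗ[k]
        (G.diff M k).H ⊤ ⊥ j))
    (M : Type u) [AddCommGroup M] [Module R M] [Module k M] [IsScalarTower k R M]
    [Module.Finite R M] :
    (G.map (iterateFrobenius R p e)).FiniteHom M k ∧
      (G.map (iterateFrobenius R p e)).chi M k =
        ((p ^ e : ℕ) : ℤ) ^ x.length * emult k y (S ⊗[R] M) := by
  have : IsNoetherianRing S := IsNoetherianRing.of_finite R S
  have : Module.Finite R (Pull (iterateFrobenius R p e) M) := Pull.finite _ hF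
  obtain ⟨f1, f2⟩ := G.map_frobenius_hom p e (k := k) M
  obtain ⟨g1, g2⟩ := (FreeCx.koszul y).restrict_hom b (k := k)
    (M := Pull (iterateFrobenius R p e) M)
  obtain ⟨k1, k2⟩ := koszul_chi_eq_emult (k := k) y (S ⊗[R] Pull (iterateFrobenius R p e) M)
    (good_baseChange _)
  refine ⟨f1.2 (FreeCx.finiteHom_congr_homology (hG _) (g1.2 k1)), ?_⟩
  rw [f2, ← FreeCx.chi_congr_homology (hG _), g2, k2]
  exact emult_baseChange_pull p e hF hx hlen M

end frobenius

section minimal

variable {A : Type*} [CommRing A]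

theorem FreeCx.koszul_lengthLE : ∀ z : List A, (FreeCx.koszul z).LengthLE z.length
  | [] => fun _ => Nat.zero_le _
  | _ :: zs => fun p => Nat.add_le_add (FreeCx.koszul_lengthLE zs p.1) (Nat.le_of_lt_succ p.2.2)

theorem FreeCx.koszul_exists_pos_zero :
    ∀ z : List A, ∃ g : (FreeCx.koszul z).ι, (FreeCx.koszul z).pos g = 0
  | [] => ⟨(), rfl⟩
  | _ :: zs => by
    obtain ⟨g, hg⟩ := FreeCx.koszul_exists_pos_zero zs
    exact ⟨(g, (0 : Fin 2)), by
      show (FreeCx.koszul zs).pos g + ((0 : Fin 2) : ℕ) = 0
      simp [hg]⟩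

theorem FreeCx.koszul1_entriesIn (I : Ideal A) {a : A} (ha : a ∈ I) :
    (FreeCx.koszul1 a).EntriesIn I := fun (i j : Fin 2) => by
  rw [FreeCx.koszul1_mat]
  split_ifs
  exacts [ha, I.zero_mem]

theorem FreeCx.koszul_entriesIn (I : Ideal A) :
    ∀ z : List A, (∀ a ∈ z, a ∈ I) → (FreeCx.koszul z).EntriesIn I
  | [], _ => fun _ _ => Ideal.zero_mem _
  | a :: zs, h => fun p q => by
    refine I.add_mem ?_ ?_
    · split_ifs
      exacts [FreeCx.koszul_entriesIn I zs (fun b hb => h b (List.mem_cons_of_mem a hb)) _ _,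
        I.zero_mem]
    · split_ifs
      · exact I.mul_mem_left _ (FreeCx.koszul1_entriesIn I (h a List.mem_cons_self) _ _)
      · exact I.zero_mem

variable {k : Type*} [Field k] [Algebra k A]

/-- Homology in position zero surjects on quotients by the entries. -/
theorem FreeCx.finrank_le_homDim_zero (G : FreeCx A) (I : Ideal A) (hI : G.EntriesIn I)
    (g₀ : G.ι) (hg₀ : G.pos g₀ = 0) (N : Type*) [AddCommGroup N] [Module A N] [Module k N]
    [IsScalarTower k A N] [Module.Finite k N] {T : Type*} [AddCommGroup T] [Module k T]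
    (π : N →ₗ[k] T) (hπ : Function.Surjective π)
    (hπI : ∀ a ∈ I, ∀ n : N, π (a • n) = 0) : Module.finrank k T ≤ G.homDim N k 0 := by
  classical
  let ev : (G.diff N k).cycles ⊤ ⊥ 0 →ₗ[k] T :=
    π.comp ((LinearMap.proj g₀).comp ((G.diff N k).cycles ⊤ ⊥ 0).subtype)
  have hker : ((G.diff N k).bdries ⊤ ⊥ 0).comap ((G.diff N k).cycles ⊤ ⊥ 0).subtype ≤
      LinearMap.ker ev := by
    intro f hf
    obtain ⟨w, -, y, ⟨hy, -⟩, hw⟩ := (Diff.mem_bdries _).1 hf
    rw [Submodule.mem_bot] at hy
    rw [hy, add_zero] at hw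
    rw [LinearMap.mem_ker]
    show π (f.1 g₀) = 0
    rw [show f.1 g₀ = G.dA N w g₀ from (congrFun hw g₀).symm, FreeCx.dA_apply, map_sum]
    exact Finset.sum_eq_zero fun g _ => hπI _ (hI g₀ g) _
  have hsurj : Function.Surjective (Submodule.liftQ _ ev hker) := by
    intro t
    obtain ⟨v, rfl⟩ := hπ t
    let f : G.ι → N := Pi.single g₀ v
    have hf : f ∈ (G.diff N k).deg 0 := fun g hg => by
      have : g ≠ g₀ := by
        rintro rfl
        exact hg (by rw [hg₀]; rfl)
      simp [f, this]
    have hd : (G.diff N k).d f = 0 := by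
      funext h
      show G.dA N f h = 0
      rw [FreeCx.dA_apply]
      refine Finset.sum_eq_zero fun g _ => ?_
      by_cases hg : g = g₀
      · subst hg
        have h0 : G.mat h g = 0 := by
          by_contra h0
          have := G.mat_pos h g h0
          omega
        rw [h0, zero_smul]
      · simp [f, hg]
    refine ⟨Submodule.Quotient.mk
      ⟨f, (Diff.mem_cycles _).2 ⟨trivial, hf, by rw [hd]; exact zero_mem _⟩⟩, ?_⟩
    show π (f g₀) = π v
    simp [f]
  exact LinearMap.finrank_le_finrank_of_surjective hsurj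

variable (p : ℕ) [Fact p.Prime] {R : Type u} [CommRing R] [IsNoetherianRing R] [IsLocalRing R]
  [CharP k p] [PerfectRing k p] [Algebra k R] [CharP R p]
  [Module.Finite k (IsLocalRing.ResidueField R)]
  {S : Type u} [CommRing S] [IsLocalRing S] [Algebra R S] [Algebra k S] [IsScalarTower k R S]
  [Module.Finite R S] [Module.Flat R S] {x : List R} {y : List S}

open IsLocalRing in
/-- The minimal complex over `R` of the Koszul complex of `y`: its Frobenius twists have entries
in high powers of the maximal ideal and Euler characteristic `q ^ d` times the multiplicity. -/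
theorem exists_twist [Module.Finite k (R ⧸ Ideal.ofList x)]
    [Module.Finite k (S ⧸ Ideal.ofList y)] (hx : ∀ a ∈ x, a ∈ maximalIdeal R)
    (hy : ∀ a ∈ y, a ∈ maximalIdeal S) (hlen : y.length = x.length)
    {r : ℕ} (b : Module.Basis (Fin r) R S) :
    ∃ G : FreeCx R, G.LengthLE x.length ∧ G.EntriesIn (maximalIdeal R) ∧
      1 ≤ G.rank 0 ∧
      Module.finrank k (ResidueField S) ≤ G.rank 0 * Module.finrank k (ResidueField R) ∧
      ∀ e : ℕ, (iterateFrobenius R p e).Finite →
        (G.map (iterateFrobenius R p e)).EntriesIn (maximalIdeal R ^ p ^ e) ∧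
        (G.map (iterateFrobenius R p e)).FiniteHom R k ∧
        (G.map (iterateFrobenius R p e)).chi R k =
          ((p ^ e : ℕ) : ℤ) ^ x.length * emult k y S ∧
        ∀ (M : Type u) [AddCommGroup M] [Module R M] [Module k M] [IsScalarTower k R M]
          [Module.Finite R M], (G.map (iterateFrobenius R p e)).FiniteHom M k ∧
            (G.map (iterateFrobenius R p e)).chi M k =
              ((p ^ e : ℕ) : ℤ) ^ x.length * emult k y (S ⊗[R] M) := by
  obtain ⟨G, hGlen, hGm, hG⟩ := FreeCx.exists_minimal
    (Fintype.card ((FreeCx.koszul y).restrict b).ι) ((FreeCx.koszul y).restrict b) le_rfl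
  have hloc : ∀ a ∈ maximalIdeal R, algebraMap R S a ∈ maximalIdeal S := fun a ha => by
    have := Ideal.isMaximal_comap_of_isIntegral_of_isMaximal (R := R) (maximalIdeal S)
    rw [← Ideal.mem_comap, IsLocalRing.eq_maximalIdeal this]
    exact ha
  let ψ : ResidueField R →ₗ[R] ResidueField S :=
    Submodule.liftQ (maximalIdeal R) (Algebra.linearMap R (ResidueField S)) fun a ha => by
      rw [LinearMap.mem_ker, Algebra.linearMap_apply,
        IsScalarTower.algebraMap_apply R S (ResidueField S), ResidueField.algebraMap_eq,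
        residue_eq_zero_iff]
      exact hloc a ha
  have hN : Module.Finite k (S ⊗[R] ResidueField R) := by
    let φ : (Fin r → ResidueField R) ≃ₗ[R] S ⊗[R] ResidueField R :=
      ((TensorProduct.equivFinsuppOfBasisLeft b).trans
        (Finsupp.linearEquivFunOnFinite R _ (Fin r))).symm
    have : IsScalarTower k R (S ⊗[R] ResidueField R) :=
      IsScalarTower.of_algebraMap_smul fun c t => by
        induction t with
        | zero => rw [smul_zero, smul_zero]
        | add a b ha hb => rw [smul_add, smul_add, ha, hb]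
        | tmul s m => rw [TensorProduct.smul_tmul', TensorProduct.smul_tmul', algebraMap_smul]
    exact Module.Finite.equiv (φ.restrictScalars k)
  let π : S ⊗[R] ResidueField R →ₗ[S] ResidueField S := ψ.liftBaseChange S
  have hπ : Function.Surjective π := fun q => by
    obtain ⟨s, rfl⟩ := residue_surjective q
    refine ⟨s ⊗ₜ[R] residue R 1, ?_⟩
    rw [LinearMap.liftBaseChange_tmul]
    show s • algebraMap R (ResidueField S) 1 = residue S s
    rw [map_one, Algebra.smul_def, mul_one, ResidueField.algebraMap_eq]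
  have hrank : Module.finrank k (ResidueField S) ≤
      G.rank 0 * Module.finrank k (ResidueField R) := by
    obtain ⟨g₀, hg₀⟩ := FreeCx.koszul_exists_pos_zero y
    have hle := FreeCx.finrank_le_homDim_zero (k := k) (FreeCx.koszul y) (maximalIdeal S)
      (FreeCx.koszul_entriesIn _ y hy) g₀ hg₀ (S ⊗[R] ResidueField R) (π.restrictScalars k) hπ
      (fun a ha n => by
        rw [LinearMap.coe_restrictScalars, map_smul, Algebra.smul_def,
          ResidueField.algebraMap_eq, (residue_eq_zero_iff a).2 ha, zero_mul])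
    obtain ⟨e₁⟩ := hG k (ResidueField R) 0
    rwa [(FreeCx.koszul y).restrict_homDim b,
      show ((FreeCx.koszul y).restrict b).homDim (ResidueField R) k 0 =
        G.homDim (ResidueField R) k 0 from e₁.finrank_eq,
      FreeCx.homDim_zero_of_entriesIn G hGm k] at hle
  have : Module.Finite k (ResidueField S) := Module.Finite.of_surjective (π.restrictScalars k) hπ
  have hall := fun e hF (M : Type u) [AddCommGroup M] [Module R M] [Module k M]
      [IsScalarTower k R M] [Module.Finite R M] =>
    restrict_map_frobenius p e hF hx hlen b G (fun M _ _ _ _ j => hG k M j) M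
  refine ⟨G, hGlen _ ?_, hGm, ?_, hrank, fun e hF => ⟨fun h g => ?_, (hall e hF R).1, ?_,
    hall e hF⟩⟩
  · exact hlen ▸ FreeCx.restrict_lengthLE _ b (FreeCx.koszul_lengthLE y)
  · exact Nat.pos_of_mul_pos_right (lt_of_lt_of_le Module.finrank_pos hrank)
  · show iterateFrobenius R p e (G.mat h g) ∈ _
    rw [iterateFrobenius_def]
    exact Ideal.pow_mem_pow (hGm h g) _
  · rw [(hall e hF R).2, emult_congr (TensorProduct.AlgebraTensorModule.rid R S S)]

end minimal

end Vale.Agent.P202
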